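import Vale.Agent.P281.H83.HKT.Spec
import Vale.Agent.P281.H399.QT.Cmp
import Vale.Agent.P281.H125.Fib.Prim
import Vale.Agent.P281.MF.Hol

/-!
# P281, project T-HKT (helper751): `BasTStmt`, additive functions on `E` and closed holomorphic
1-forms on `E / K`
-/

open Set Filter Metric MeasureTheory Vale.Agent.P281 Vale.Agent.P281.H713 Vale.Agent.P272.K
open Vale.Agent.P281.H64 (Mark)
open Vale.Agent.P281.H399.QT (Qs One1 pj quo)
open scoped Topology ContDiff ComplexConjugate

noncomputable section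

namespace Vale.Agent.P281.H751.HKT

open Vale.Agent.P281.H64.TK Vale.Agent.P281.H83.HKT

section pre
variable {d : ℕ}

theorem pi_sum (v : Cm d) : v = ∑ k, v k • (Pi.single k (1 : ℂ) : Cm d) := by
  funext l
  simp [Finset.sum_apply, Pi.single_apply]

theorem clm_sum {F : Type} [NormedAddCommGroup F] [NormedSpace ℂ F] (L : Cm d →L[ℂ] F)
    (v : Cm d) : L v = ∑ k, v k • L (Pi.single k 1) := by
  conv_lhs => rw [pi_sum v]
  rw [map_sum]
  exact Finset.sum_congr rfl fun k _ => by rw [map_smul]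

theorem an_fd {f : Cm d → ℂ} (hf : DifferentiableOn ℂ f (ball 0 3)) {z : Cm d}
    (hz : z ∈ ball (0 : Cm d) 3) : DifferentiableAt ℂ (fderiv ℂ f) z :=
  (MF.analyticAt_of_differentiableOn isOpen_ball hf hz).fderiv.differentiableAt

theorem dd_diff {f : Cm d → ℂ} (hf : DifferentiableOn ℂ f (ball 0 3)) (k : Fin d) :
    DifferentiableOn ℂ (fun z => dd k f z) (ball 0 3) := by
  intro z hz
  have h1 : DifferentiableAt ℂ (fun z => fderiv ℂ f z (Pi.single k (1 : ℂ) : Cm d)) z :=
    (an_fd hf hz).clm_apply (differentiableAt_const _)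
  exact h1.differentiableWithinAt

theorem dd_dd {f : Cm d → ℂ} (hf : DifferentiableOn ℂ f (ball 0 3)) {z : Cm d}
    (hz : z ∈ ball (0 : Cm d) 3) (k l : Fin d) :
    dd k (fun z => dd l f z) z = fderiv ℂ (fderiv ℂ f) z (Pi.single k 1) (Pi.single l 1) := by
  have h1 := (an_fd hf hz).hasFDerivAt.clm_apply (hasFDerivAt_const (Pi.single l (1 : ℂ)) z)
  show fderiv ℂ (fun z => fderiv ℂ f z (Pi.single l 1)) z (Pi.single k 1) = _
  rw [h1.fderiv]
  simp

theorem dd_symm {f : Cm d → ℂ} (hf : DifferentiableOn ℂ f (ball 0 3)) {z : Cm d}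
    (hz : z ∈ ball (0 : Cm d) 3) (k l : Fin d) :
    dd k (fun z => dd l f z) z = dd l (fun z => dd k f z) z := by
  rw [dd_dd hf hz, dd_dd hf hz]
  have h1 : ContDiffAt ℂ ω f z :=
    (MF.analyticAt_of_differentiableOn isOpen_ball hf hz).contDiffAt
  exact (h1.isSymmSndFDerivAt le_top) _ _

end pre

section
variable {d a : ℕ} {E K : Type} [TopologicalSpace E] [Group K] [MulAction K E]
  {S : Sheets d E K} {F : E → Fin a → ℂ} {c : K → Fin a → ℂ}

theorem add_comb (hB : IsBas S F c) (s : Fin a → ℂ) :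
    Add S (fun e => ∑ j, s j * F e j) (fun γ => ∑ j, s j * c γ j) where
  hol i := DifferentiableOn.fun_sum fun j _ => ((hB.add j).hol i).const_mul (s j)
  add γ e := by
    rw [← Finset.sum_add_distrib]
    refine Finset.sum_congr rfl fun j _ => ?_
    have h := (hB.add j).add γ e
    rw [← mul_add, ← h]

theorem add_hom [Nonempty E] {h : E → ℂ} {b : K → ℂ} (hh : Add S h b) (x y : K) :
    b (x * y) = b x + b y := by
  obtain ⟨e⟩ := ‹Nonempty E›
  have h1 := hh.add (x * y) e
  rw [mul_smul, hh.add, hh.add] at h1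
  linear_combination -h1

/-- The 1-form of the differentials, on the quotient. -/
theorem hol1_dF [ContinuousConstSMul K E] (hF : ∀ j, Add S (fun e => F e j) (fun γ => c γ j)) :
    Hol1 (quo S) (dF S F) where
  hol i j k := dd_diff ((hF j).hol i) k
  closed i z hz j k l := dd_symm ((hF j).hol i) hz k l
  change i j z hz z' hz' θ hθ hθz hev := by
    ext r k
    have h1 := H399.QT.add_change (hF r) hz hz' hθ.differentiableAt hθz hev
    have h2 : dF S F i z r k = fderiv ℂ (fun z => F (S.σ i z) r) z (Pi.single k 1) := rfl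
    rw [h2, h1, ContinuousLinearMap.comp_apply, clm_sum (fderiv ℂ (fun z => F (S.σ j z) r) z'),
      Matrix.mul_apply]
    refine Finset.sum_congr rfl fun l _ => ?_
    show fderiv ℂ θ z (Pi.single k 1) l • fderiv ℂ (fun z => F (S.σ j z) r) z' (Pi.single l 1) =
      fderiv ℂ (fun z => F (S.σ j z) r) z' (Pi.single l 1) * fderiv ℂ θ z (Pi.single k 1) l
    rw [smul_eq_mul, mul_comm]

variable [T2Space E] [SimplyConnectedSpace E] [ContinuousConstSMul K E]
  {w : Fin S.N → Cm d → Matrix (Fin d) (Fin d) ℂ}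

/-- A combination with vanishing real periods vanishes. -/
theorem comb_zero (hC2 : C2Stmt) (hd : 0 < d) (hw : Kah S w) (hB : IsBas S F c) {s : Fin a → ℂ}
    (hs : ∀ γ, (∑ j, s j * c γ j).re = 0) : s = 0 := by
  obtain ⟨e⟩ : Nonempty E := inferInstance
  have h1 := (hC2 d E K S w hd hw).2 _ _ (add_comb hB s) hs
  refine hB.indep s fun γ => ?_
  have h2 := (add_comb hB s).add γ e
  have h3 := h1 (γ • e) e
  linear_combination h3 - h2

theorem cov_pos (hC2 : C2Stmt) (hd : 0 < d) (hw : Kah S w) (M : Mark K (a + a))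
    (hB : IsBas S F c) : 0 < cov M c := by
  rw [cov, abs_pos]
  intro h0
  obtain ⟨x, hx, hx0⟩ := Matrix.exists_vecMul_eq_zero_iff.2 h0
  let s : Fin a → ℂ := fun j => (x (Sum.inl j) : ℂ) - Complex.I * (x (Sum.inr j) : ℂ)
  have hsre : ∀ γ, (∑ j, s j * c γ j).re =
      ∑ j, (x (Sum.inl j) * (c γ j).re + x (Sum.inr j) * (c γ j).im) := by
    intro γ
    rw [Complex.re_sum]
    refine Finset.sum_congr rfl fun j _ => ?_
    simp [s]
  have hg : ∀ k, (∑ j, s j * c (M.g k) j).re = 0 := by
    intro k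
    rw [hsre]
    have h1 := congrFun hx0 (finSumFinEquiv.symm k)
    simp only [Matrix.vecMul, dotProduct, Fintype.sum_sum_type, Matrix.of_apply, Sum.elim_inl,
      Sum.elim_inr, Equiv.apply_symm_apply, Pi.zero_apply] at h1
    rw [Finset.sum_add_distrib]
    exact h1
  have hall : ∀ γ, (∑ j, s j * c γ j).re = 0 := by
    intro γ
    have h1 := M.complete (fun γ => (∑ j, s j * c γ j).re) (fun x y => by
      have := add_hom (add_comb hB s) x y
      rw [this, Complex.add_re]) γ
    rw [h1]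
    exact Finset.sum_eq_zero fun k _ => by rw [hg, zero_mul]
  have h0 := comb_zero hC2 hd hw hB hall
  refine hx (funext fun q => ?_)
  rcases q with j | j
  · have := congrArg Complex.re (congrFun h0 j)
    simpa [s] using this
  · have := congrArg Complex.im (congrFun h0 j)
    simpa [s] using this

/-- The functional of a row. -/
def rowL (v : Matrix (Fin 1) (Fin d) ℂ) : Cm d →L[ℂ] ℂ :=
  ∑ k, v 0 k • (ContinuousLinearMap.proj (R := ℂ) (φ := fun _ : Fin d => ℂ) k)

omit [T2Space E] [SimplyConnectedSpace E] in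
theorem rowL_apply (v : Matrix (Fin 1) (Fin d) ℂ) (x : Cm d) : rowL v x = ∑ k, v 0 k * x k := by
  simp [rowL]

theorem span1 (hC2 : C2Stmt) (hd : 0 < d) (hw : Kah S w) (hB : IsBas S F c)
    {v : Fin S.N → Cm d → Matrix (Fin 1) (Fin d) ℂ} (hv : Hol1 (quo S) v) :
    ∃ c : Matrix (Fin 1) (Fin a) ℂ, ∀ i, ∀ z ∈ ball (0 : Cm d) 3, v i z = c * dF S F i z := by
  have hdiff : ∀ i, DifferentiableOn ℂ (fun z => rowL (v i z)) (ball 0 3) := by
    intro i
    unfold rowL
    exact DifferentiableOn.fun_sum fun k _ => (hv.hol i 0 k).smul_const _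
  have hder : ∀ i, ∀ z ∈ ball (0 : Cm d) 3, ∀ x y, fderiv ℂ (fun z => rowL (v i z)) z x y =
      ∑ k, ∑ l, dd l (fun z => v i z 0 k) z * (x l * y k) := by
    intro i z hz x y
    have h1 := ((hdiff i).differentiableAt (isOpen_ball.mem_nhds hz)).hasFDerivAt.clm_apply
      (hasFDerivAt_const y z)
    have h2 : fderiv ℂ (fun z => rowL (v i z) y) z x = fderiv ℂ (fun z => rowL (v i z)) z x y := by
      rw [h1.fderiv]
      simp
    rw [← h2]
    have h3 : HasFDerivAt (fun z => rowL (v i z) y)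
        (∑ k, (y k) • fderiv ℂ (fun z => v i z 0 k) z) z := by
      have h4 : (fun z => rowL (v i z) y) = fun z => ∑ k, v i z 0 k * y k :=
        funext fun z => rowL_apply _ _
      rw [h4]
      exact HasFDerivAt.fun_sum fun k _ =>
        ((hv.hol i 0 k).differentiableAt (isOpen_ball.mem_nhds hz)).hasFDerivAt.mul_const _
    rw [h3.fderiv]
    simp only [sum_apply, smul_apply, smul_eq_mul]
    refine Finset.sum_congr rfl fun k _ => ?_
    rw [clm_sum (fderiv ℂ (fun z => v i z 0 k) z) x, Finset.mul_sum]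
    refine Finset.sum_congr rfl fun l _ => ?_
    show y k * (x l • fderiv ℂ (fun z => v i z 0 k) z (Pi.single l 1)) =
      fderiv ℂ (fun z => v i z 0 k) z (Pi.single l 1) * (x l * y k)
    rw [smul_eq_mul]
    ring
  have hcl : H125.Fib.Cl1 S (fun i z => rowL (v i z)) := by
    refine ⟨fun i z hz => ?_, fun i j z hz => ?_⟩
    · have han : ∀ w ∈ ball (0 : Cm d) 3, HasFDerivAt (𝕜 := ℝ) (fun z => rowL (v i z))
          ((fderiv ℂ (fun z => rowL (v i z)) w).restrictScalars ℝ) w := fun w hw =>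
        ((hdiff i).differentiableAt (isOpen_ball.mem_nhds hw)).hasFDerivAt.restrictScalars ℝ
      obtain ⟨f, hf⟩ := (convex_ball (0 : Cm d) 3).exists_forall_hasFDerivAt_of_fderiv_symmetric
        isOpen_ball (fun w hw => (han w hw).differentiableAt.differentiableWithinAt)
        (fun w hw x y => by
          rw [(han w hw).fderiv]
          show fderiv ℂ (fun z => rowL (v i z)) w x y = fderiv ℂ (fun z => rowL (v i z)) w y x
          rw [hder i w hw, hder i w hw, Finset.sum_comm]
          refine Finset.sum_congr rfl fun l _ => Finset.sum_congr rfl fun k _ => ?_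
          have h1 : dd l (fun z => v i z 0 k) w = dd k (fun z => v i z 0 l) w :=
            hv.closed i w hw 0 l k
          rw [h1]
          ring)
      exact ⟨f, by filter_upwards [isOpen_ball.mem_nhds hz] with y hy using hf y hy⟩
    · have h1 := H125.KH.Sh.tau_spec hz
      have hev : ∀ᶠ u in 𝓝 z, (quo S).σ i u = (quo S).σ j (H125.KH.Sh.τ S i j u) := by
        filter_upwards [H125.KH.Sh.isOpen_U.mem_nhds hz] with u hu
        show pj K (S.σ i u) = pj K (S.σ j (H125.KH.Sh.τ S i j u))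
        rw [H125.KH.Sh.sigma_eq hu, H399.QT.pj_smul]
      have h2 := hv.change i j z hz.1 _ h1.1 _ (H125.KH.Sh.analyticAt_tau hz) rfl hev
      refine ContinuousLinearMap.ext fun x => ?_
      rw [ContinuousLinearMap.comp_apply, rowL_apply, rowL_apply, h2]
      simp only [Matrix.mul_apply, Finset.sum_mul]
      rw [Finset.sum_comm]
      refine Finset.sum_congr rfl fun l _ => ?_
      rw [clm_sum (fderiv ℂ (H125.KH.Sh.τ S i j) z) x, Finset.sum_apply, Finset.mul_sum]
      refine Finset.sum_congr rfl fun k _ => ?_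
      show v j _ 0 l * fderiv ℂ (H125.KH.Sh.τ S i j) z (Pi.single k 1) l * x k =
        v j _ 0 l * (x k * fderiv ℂ (H125.KH.Sh.τ S i j) z (Pi.single k 1) l)
      ring
  obtain ⟨h, b, hh, hfd⟩ := H125.Fib.exists_prim hcl
  obtain ⟨s, hs⟩ := hB.span h b hh
  have hsub : Add S (fun e => h e - ∑ j, s j * F e j) (fun _ => 0) := by
    refine ⟨fun i => (hh.hol i).sub ((add_comb hB s).hol i), fun γ e => ?_⟩
    show h (γ • e) - ∑ j, s j * F (γ • e) j = h e - ∑ j, s j * F e j + 0
    have h1 := (add_comb hB s).add γ e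
    rw [hh.add, h1, hs]
    ring
  have hconst := (hC2 d E K S w hd hw).2 _ _ hsub (fun _ => rfl)
  refine ⟨Matrix.of fun _ j => s j, fun i z hz => ?_⟩
  have hz' := isOpen_ball.mem_nhds hz
  have e1 : HasFDerivAt (fun z => h (S.σ i z) - ∑ j, s j * F (S.σ i z) j)
      (rowL (v i z) - ∑ j, s j • fderiv ℂ (fun z => F (S.σ i z) j) z) z :=
    (hfd i z hz).sub (HasFDerivAt.fun_sum fun j _ =>
      (((hB.add j).hol i).differentiableAt hz').hasFDerivAt.const_mul (s j))
  have e2 : (fun z => h (S.σ i z) - ∑ j, s j * F (S.σ i z) j) =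
      fun _ => h (S.σ i z) - ∑ j, s j * F (S.σ i z) j := funext fun y => hconst _ _
  rw [e2] at e1
  have e3 : rowL (v i z) - ∑ j, s j • fderiv ℂ (fun z => F (S.σ i z) j) z = 0 :=
    e1.unique (hasFDerivAt_const _ _)
  ext r k
  have hr : r = 0 := Subsingleton.elim _ _
  subst hr
  have e4 := congrArg (fun L : Cm d →L[ℂ] ℂ => L (Pi.single k 1)) (sub_eq_zero.1 e3)
  have e5 : rowL (v i z) (Pi.single k 1) = v i z 0 k := by
    rw [rowL_apply]
    simp [Pi.single_apply]
  rw [← e5, e4, Matrix.mul_apply, sum_apply]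
  rfl

end

/-- **BAS**, from `C2`. -/
theorem bas_of (hC2 : C2Stmt) : BasTStmt := by
  intro d a E K _ _ _ _ _ _ S w M F c hd hw hB
  exact ⟨hol1_dF hB.add, fun v hv => span1 hC2 hd hw hB hv, cov_pos hC2 hd hw M hB⟩

end Vale.Agent.P281.H751.HKT
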