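import Vale.Agent.P281.H83.HKT.Defs
import Vale.Agent.P281.H191.HKT.Alt
import Vale.Agent.P281.H864.HK.W

/-!
# P281, project T-HKT (helper751): restriction to the last coordinates and the top product

`rs x` is the restriction of the 2-form `x` of `ℂ^(a+m)` to the last `m` coordinates. If the first
`a` factors are `(i/2) u_j ∧ conj u_j`, `u_j = ∑_{k < a} u_{jk} dz_k`, the top product is
`|det u|² W (rs b_1, ..., rs b_m)`.
-/

open Set Filter Vale.Agent.P272.K
open scoped Topology ContDiff ComplexConjugate ComplexOrder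

noncomputable section

namespace Vale.Agent.P281.H751.HKT

open Vale.Agent.P281.H64.TK Vale.Agent.P281.H64.TK.TS
open Vale.Agent.P281.H83.HK (W W3 abc rb mkL kf tf cj)
open Vale.Agent.P281.H83.HKT (thj lst W4 thl)
open Vale.Agent.P281.H191.HKT

/-! ### `W` is symmetric -/

theorem W_eq {d : ℕ} (b : Fin d → L2 d) : W b = H864.HK.W b := by
  have rb_eq : ∀ q : Fin d × Fin 2, rb q = H864.HK.rbp d q := by
    rintro ⟨k, l⟩
    rw [H864.HK.rbp_apply, rb]
    fin_cases l
    · rfl
    · rfl
  rw [W, H864.HK.W, H864.HK.Wv, Fintype.card_fin, one_div, inv_pow]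
  simp only [rb_eq, H864.HK.pr]

theorem W_perm {d : ℕ} (b : Fin d → L2 d) (τ : Equiv.Perm (Fin d)) : W (fun i => b (τ i)) = W b := by
  rw [W_eq, W_eq]
  exact H864.HK.Wv_perm b τ _

/-! ### Coordinates -/

/-- The coordinate `z_k`. -/
def dz {d : ℕ} (k : Fin d) : L1 d := (ContinuousLinearMap.proj (R := ℝ) (φ := fun _ : Fin d => ℂ) k)

@[simp] theorem dz_apply {d : ℕ} (k : Fin d) (v : Cm d) : dz k v = v k := rfl

/-- The real coordinates: the dual basis of `rb`. -/
def cb {d : ℕ} (q : Fin d × Fin 2) : L1 d :=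
  Complex.ofRealCLM ∘L (if q.2 = 0 then Complex.reCLM else Complex.imCLM) ∘L dz q.1

theorem cb_rb {d : ℕ} (q q' : Fin d × Fin 2) : cb q (rb q') = if q' = q then 1 else 0 := by
  obtain ⟨k, e⟩ := q
  obtain ⟨k', e'⟩ := q'
  by_cases hk : k' = k
  · subst hk
    fin_cases e <;> fin_cases e' <;> simp [cb, rb]
  · have h1 : k ≠ k' := fun h => hk h.symm
    fin_cases e <;> simp [cb, rb, hk, h1]

variable {a m : ℕ}

/-- The inclusion of the last `m` coordinates. -/
def inc (a m : ℕ) : Cm m →L[ℝ] Cm (a + m) :=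
  ContinuousLinearMap.pi fun k : Fin (a + m) =>
    Fin.addCases (motive := fun _ => Cm m →L[ℝ] ℂ) (fun _ => 0) (fun i => dz i) k

@[simp] theorem inc_left (v : Cm m) (j : Fin a) : inc a m v (Fin.castAdd m j) = 0 := by
  simp [inc]

@[simp] theorem inc_right (v : Cm m) (i : Fin m) : inc a m v (Fin.natAdd a i) = v i := by
  simp [inc]

theorem inc_rb (q : Fin m × Fin 2) : inc a m (rb q) = rb (Fin.natAdd a q.1, q.2) := by
  funext k
  refine Fin.addCases (fun j => ?_) (fun i => ?_) k
  · rw [inc_left]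
    unfold rb
    rw [Pi.single_eq_of_ne]
    intro h
    have := congrArg Fin.val h
    simp at this
    omega
  · rw [inc_right]
    unfold rb
    by_cases h : i = q.1
    · subst h
      simp
    · rw [Pi.single_eq_of_ne h, Pi.single_eq_of_ne]
      intro h'
      exact h (Fin.ext (by simpa using congrArg Fin.val h'))

/-- **The restriction of a 2-form to the last `m` coordinates.** -/
def rs (x : L2 (a + m)) : L2 m := x.bilinearComp (inc a m) (inc a m)

@[simp] theorem rs_apply (x : L2 (a + m)) (u v : Cm m) : rs x u v = x (inc a m u) (inc a m v) := rfl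

/-! ### Permutations fixing the first coordinates -/

/-- The places of the last `m` coordinates. -/
def emb (a m : ℕ) : Fin m × Fin 2 ≃ {q : Fin (a + m) × Fin 2 // a ≤ q.1.val} where
  toFun q := ⟨(Fin.natAdd a q.1, q.2), by simp⟩
  invFun q := (⟨q.1.1.val - a, by have := q.1.1.isLt; have := q.2; omega⟩, q.1.2)
  left_inv q := by
    refine Prod.ext (Fin.ext ?_) rfl
    simp
  right_inv q := by
    refine Subtype.ext (Prod.ext (Fin.ext ?_) rfl)
    have := q.2
    simp
    omega

theorem sum_fix (F : Equiv.Perm (Fin (a + m) × Fin 2) → ℂ)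
    (hF : ∀ π, (∃ j : Fin a, ∃ e, π (Fin.castAdd m j, e) ≠ (Fin.castAdd m j, e)) → F π = 0) :
    ∑ π, F π = ∑ π' : Equiv.Perm (Fin m × Fin 2), F (π'.extendDomain (emb a m)) := by
  symm
  refine Fintype.sum_of_injective (fun π' => Equiv.Perm.extendDomain π' (emb a m))
    (Equiv.Perm.extendDomainHom_injective (emb a m)) _ _ ?_ fun _ => rfl
  intro π hπ
  apply hF
  by_contra hcon
  push Not at hcon
  apply hπ
  have hfix : ∀ q : Fin (a + m) × Fin 2, ¬ a ≤ q.1.val → π q = q := by
    intro q hq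
    have h1 := hcon ⟨q.1.val, by omega⟩ q.2
    have h2 : (Fin.castAdd m ⟨q.1.val, by omega⟩, q.2) = q := Prod.ext (Fin.ext rfl) rfl
    rw [h2] at h1
    exact h1
  have hp : ∀ q : Fin (a + m) × Fin 2, a ≤ (π q).1.val ↔ a ≤ q.1.val := by
    intro q
    constructor
    · intro h
      by_contra h'
      rw [hfix q h'] at h
      exact h' h
    · intro h
      by_contra h'
      have h2 := π.injective (hfix (π q) h')
      rw [h2] at h'
      exact h' h
  refine ⟨(emb a m).permCongr.symm (π.subtypePerm hp), ?_⟩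
  ext1 q
  by_cases hq : a ≤ q.1.val
  · have h1 := Equiv.Perm.extendDomain_apply_subtype
      ((emb a m).permCongr.symm (π.subtypePerm hp)) (emb a m) (b := q) hq
    refine h1.trans ?_
    simp
  · have h1 := Equiv.Perm.extendDomain_apply_not_subtype
      ((emb a m).permCongr.symm (π.subtypePerm hp)) (emb a m) (b := q) hq
    exact h1.trans (hfix q hq).symm

/-- The places of the first `a` coordinates. -/
def Ja (a m : ℕ) : Finset (Fin (a + m)) := Finset.univ.map (Fin.castAddEmb m)

theorem mem_Ja {i : Fin (a + m)} : i ∈ Ja a m ↔ i.val < a := by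
  constructor
  · intro h
    obtain ⟨j, _, rfl⟩ := Finset.mem_map.1 h
    exact j.isLt
  · intro h
    exact Finset.mem_map.2 ⟨⟨i.val, h⟩, Finset.mem_univ _, Fin.ext rfl⟩

theorem card_Ja : (Ja a m).card = a := by simp [Ja]

theorem univ_sdiff_Ja : Finset.univ \ Ja a m = Finset.univ.map (Fin.natAddEmb a) := by
  ext i
  rw [Finset.mem_sdiff, mem_Ja]
  constructor
  · rintro ⟨-, h⟩
    exact Finset.mem_map.2 ⟨⟨i.val - a, by have := i.isLt; omega⟩, Finset.mem_univ _,
      Fin.ext (by simp; omega)⟩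
  · intro h
    obtain ⟨j, _, rfl⟩ := Finset.mem_map.1 h
    exact ⟨Finset.mem_univ _, by simp⟩

/-- **The top product with the factors `dx_j ∧ dy_j` at the first `a` places.** -/
theorem W_rs (A : Fin (a + m) → L2 (a + m))
    (h : ∀ j : Fin a, ∀ u v, A (Fin.castAdd m j) u v =
      cb (Fin.castAdd m j, 0) u * cb (Fin.castAdd m j, 1) v -
        cb (Fin.castAdd m j, 0) v * cb (Fin.castAdd m j, 1) u) :
    W A = W fun i : Fin m => rs (A (Fin.natAdd a i)) := by
  classical
  rw [W_eq_V (Ja a m) A cb fun i hi u v => by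
    have hi' := mem_Ja.1 hi
    have e : i = Fin.castAdd m ⟨i.val, hi'⟩ := Fin.ext rfl
    rw [e]
    exact h _ u v]
  rw [card_Ja]
  unfold V
  rw [sum_fix]
  · unfold W
    rw [show ((2 : ℂ) ^ (a + m))⁻¹ = ((2 : ℂ) ^ m)⁻¹ * ((2 : ℂ) ^ a)⁻¹ by
      rw [pow_add, mul_inv]; ring]
    have h2 : ((2 : ℂ) ^ a)⁻¹ * 2 ^ a = 1 := inv_mul_cancel₀ (by positivity)
    rw [mul_assoc, ← mul_assoc ((2 : ℂ) ^ a)⁻¹, h2, one_mul]
    congr 1
    refine Finset.sum_congr rfl fun π _ => ?_
    rw [Equiv.Perm.sign_extendDomain]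
    congr 1
    have e1 : ∀ i ∈ Ja a m, cb (i, 0) (rb ((π.extendDomain (emb a m)) (i, 0))) *
        cb (i, 1) (rb ((π.extendDomain (emb a m)) (i, 1))) = 1 := by
      intro i hi
      have hi' := mem_Ja.1 hi
      rw [Equiv.Perm.extendDomain_apply_not_subtype _ _ (by simpa using hi'),
        Equiv.Perm.extendDomain_apply_not_subtype _ _ (by simpa using hi'), cb_rb, cb_rb]
      simp
    rw [Finset.prod_congr rfl e1, Finset.prod_const_one, mul_one, univ_sdiff_Ja,
      Finset.prod_map]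
    refine Finset.prod_congr rfl fun i _ => ?_
    have e2 : ∀ e : Fin 2, (π.extendDomain (emb a m)) (Fin.natAdd a i, e) =
        (Fin.natAdd a (π (i, e)).1, (π (i, e)).2) := by
      intro e
      exact Equiv.Perm.extendDomain_apply_image π (emb a m) (i, e)
    rw [Fin.natAddEmb_apply, e2, e2, rs_apply, inc_rb, inc_rb]
  · rintro π ⟨j, e, hj⟩
    have : ∏ i ∈ Ja a m, cb (i, 0) (rb (π (i, 0))) * cb (i, 1) (rb (π (i, 1))) = 0 := by
      refine Finset.prod_eq_zero (i := Fin.castAdd m j) (mem_Ja.2 (by simp)) ?_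
      rw [cb_rb, cb_rb]
      fin_cases e
      · have hj' : π (Fin.castAdd m j, 0) ≠ (Fin.castAdd m j, 0) := hj
        rw [if_neg hj', zero_mul]
      · have hj' : π (Fin.castAdd m j, 1) ≠ (Fin.castAdd m j, 1) := hj
        rw [if_neg hj', mul_zero]
    rw [this]
    simp

/-! ### The factors `(i/2) u_j ∧ conj u_j` -/

/-- The conjugate 1-form. -/
def cj1 {d : ℕ} (l : L1 d) : L1 d := (Complex.conjCLE : ℂ →L[ℝ] ℂ) ∘L l

@[simp] theorem cj1_apply {d : ℕ} (l : L1 d) (v : Cm d) : cj1 l v = conj (l v) := rfl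

/-- The equivalence of the first `a` indices with `Ja`. -/
def eJ (a m : ℕ) : Ja a m ≃ Fin a where
  toFun j := ⟨j.1.val, mem_Ja.1 j.2⟩
  invFun j := ⟨Fin.castAdd m j, mem_Ja.2 (by simp)⟩
  left_inv j := Subtype.ext (Fin.ext rfl)
  right_inv j := Fin.ext rfl

/-- The 1-form `∑_{k < a} u_{jk} dz_k`. -/
def uf (m : ℕ) (u : Matrix (Fin a) (Fin a) ℂ) (j : Fin a) : L1 (a + m) :=
  ∑ k, u j k • dz (Fin.castAdd m k)

theorem uf_apply (u : Matrix (Fin a) (Fin a) ℂ) (j : Fin a) (v : Cm (a + m)) :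
    uf m u j v = ∑ k, u j k * v (Fin.castAdd m k) := by
  simp [uf]

theorem W_uf (A : Fin (a + m) → L2 (a + m)) (u : Matrix (Fin a) (Fin a) ℂ)
    (h : ∀ j : Fin a, ∀ v w, A (Fin.castAdd m j) v w =
      Complex.I / 2 * (uf m u j v * conj (uf m u j w) - uf m u j w * conj (uf m u j v))) :
    W A = ((‖u.det‖ ^ 2 : ℝ) : ℂ) * W fun i : Fin m => rs (A (Fin.natAdd a i)) := by
  classical
  -- the list with `dx_j ∧ dy_j`
  let A₀ : Fin (a + m) → L2 (a + m) := fun i =>
    if i ∈ Ja a m then w2 (cb (i, 0)) (cb (i, 1)) else A i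
  have hA0 : W A₀ = W fun i : Fin m => rs (A (Fin.natAdd a i)) := by
    rw [W_rs A₀]
    · congr 1
      funext i
      have : Fin.natAdd a i ∉ Ja a m := by
        rw [mem_Ja]
        simp
      simp only [A₀, if_neg this]
    · intro j v w
      have : Fin.castAdd m j ∈ Ja a m := by
        rw [mem_Ja]
        simp
      simp only [A₀, if_pos this, w2_apply]
  rw [← hA0]
  let N : Fin 2 → Matrix (Fin a) (Fin a) ℂ := fun f => if f = 0 then u else u.map conj
  let l : Ja a m × Fin 2 → L1 (a + m) := fun p =>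
    if p.2 = 0 then (Complex.I / 2) • dz p.1.1 else cj1 (dz p.1.1)
  let l' : Ja a m × Fin 2 → L1 (a + m) := fun p =>
    if p.2 = 0 then (Complex.I / 2) • uf m u (eJ a m p.1) else cj1 (uf m u (eJ a m p.1))
  let ε : Ja a m × Fin 2 ≃ Fin a × Fin 2 := Equiv.prodCongr (eJ a m) (Equiv.refl (Fin 2))
  have key := W_subst (Ja a m) A₀ A l l' ((Matrix.blockDiagonal N).submatrix ε ε) ?_ ?_ ?_ ?_
  · rw [key, Matrix.det_submatrix_equiv_self, Matrix.det_blockDiagonal, Fin.prod_univ_two]
    congr 1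
    have e0 : N 0 = u := by simp [N]
    have e1 : N 1 = (starRingEnd ℂ).mapMatrix u := by
      simp [N]
    rw [e0, e1, ← RingHom.map_det, Complex.mul_conj, Complex.normSq_eq_norm_sq]
  · rintro ⟨j, f⟩
    rw [Fintype.sum_prod_type]
    have : ∀ k : Ja a m, ∑ g : Fin 2, ((Matrix.blockDiagonal N).submatrix ε ε) (j, f) (k, g) •
        l (k, g) = N f (eJ a m j) (eJ a m k) • l (k, f) := by
      intro k
      rw [Finset.sum_eq_single f]
      · simp [ε, Matrix.blockDiagonal_apply]
      · intro g _ hg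
        have hg' : ¬ f = g := fun h => hg h.symm
        have h0 : ((Matrix.blockDiagonal N).submatrix ε ε) (j, f) (k, g) = 0 := by
          simp [ε, Matrix.blockDiagonal_apply, hg']
        rw [h0]
        exact zero_smul ℂ (l (k, g))
      · simp
    rw [Finset.sum_congr rfl fun k _ => this k]
    rw [← (eJ a m).symm.sum_comp]
    ext v
    fin_cases f
    · simp [N, l, l', uf_apply, eJ, Finset.mul_sum]
      refine Finset.sum_congr rfl fun k _ => by ring
    · simp [N, l, l', uf_apply, eJ]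
  · intro i hi
    simp only [A₀, if_neg hi]
  · intro j hj v w
    simp only [A₀, if_pos hj, w2_apply]
    simp only [l, cb]
    simp
    have h1 : ∀ z w : ℂ, Complex.I / 2 * z * conj w - Complex.I / 2 * w * conj z =
        ((z.re : ℂ) * w.im - (w.re : ℂ) * z.im) := by
      intro z w
      apply Complex.ext
      · simp
        ring
      · simp
        ring
    rw [h1]
  · intro j hj v w
    have e : j = Fin.castAdd m (eJ a m ⟨j, hj⟩) := Fin.ext rfl
    conv_lhs => rw [e]
    rw [h]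
    simp only [l']
    simp
    ring

/-! ### The lists of `H83/HKT/Defs` -/

theorem thj_apply {d : ℕ} (u : Matrix (Fin a) (Fin d) ℂ) (j : Fin a) (v w : Cm d) :
    thj u j v w = Complex.I / 2 * ((∑ k, u j k * v k) * conj (∑ k, u j k * w k) -
      (∑ k, u j k * w k) * conj (∑ k, u j k * v k)) := by
  have h1 : thj u j v w = Complex.I / 2 * ∑ k, ∑ l, u j k * conj (u j l) *
      (v k * conj (w l) - w k * conj (v l)) := rfl
  rw [h1]
  congr 1
  simp only [map_sum, map_mul, Finset.sum_mul_sum, ← Finset.sum_sub_distrib]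
  exact Finset.sum_congr rfl fun k _ => Finset.sum_congr rfl fun l _ => by ring

/-- The first `a` columns of `u`. -/
def fc (u : Matrix (Fin a) (Fin (a + m)) ℂ) : Matrix (Fin a) (Fin a) ℂ :=
  u.submatrix id (Fin.castAdd m)

theorem thj_uf {u : Matrix (Fin a) (Fin (a + m)) ℂ} (h0 : ∀ j i, u j (Fin.natAdd a i) = 0)
    (j : Fin a) (v w : Cm (a + m)) : thj u j v w = Complex.I / 2 *
      (uf m (fc u) j v * conj (uf m (fc u) j w) - uf m (fc u) j w * conj (uf m (fc u) j v)) := by
  have h1 : ∀ v : Cm (a + m), ∑ k, u j k * v k = uf m (fc u) j v := by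
    intro v
    rw [Fin.sum_univ_add, uf_apply]
    simp [h0, fc]
  rw [thj_apply, h1, h1]

/-- **The list `(θ_1, ..., θ_a, x_a, ...)`**, if `u` depends on the first `a` coordinates only. -/
theorem W_thl {u : Matrix (Fin a) (Fin (a + m)) ℂ} (h0 : ∀ j i, u j (Fin.natAdd a i) = 0)
    (x : Fin (a + m) → L2 (a + m)) :
    W (thl u x) = ((‖(fc u).det‖ ^ 2 : ℝ) : ℂ) * W fun i : Fin m => rs (x (Fin.natAdd a i)) := by
  rw [W_uf (thl u x) (fc u) fun j v w => ?_]
  · congr 2
    funext i
    simp [thl]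
  · rw [← thj_uf h0]
    simp [thl]

/-- The permutation of the places. -/
def tau (hm : 2 ≤ m) : Equiv.Perm (Fin (a + m)) :=
  Equiv.ofBijective (fun k => if h : k.val < a then (⟨k.val + 2, by omega⟩ : Fin (a + m)) else
      if k.val < a + 2 then ⟨k.val - a, by have := k.isLt; omega⟩ else k)
    (Finite.injective_iff_bijective.1 (by
      intro k l hkl
      have h := congrArg Fin.val hkl
      apply Fin.ext
      revert h
      dsimp only
      split_ifs <;> intro h <;> (try dsimp only at h) <;> omega))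

/-- **`∫_E x ∧ y ∧ θ ∧ c^(m-2)` at a point**: `|det u_1|² · rs x ∧ rs y ∧ (rs c)^(m-2)`. -/
theorem W4_rs (hm : 2 ≤ m) {u : Matrix (Fin a) (Fin (a + m)) ℂ}
    (h0 : ∀ j i, u j (Fin.natAdd a i) = 0) (x y c : L2 (a + m)) :
    W4 u x y c = ((‖(fc u).det‖ ^ 2 : ℝ) : ℂ) * W3 (rs x) (rs y) (rs c) := by
  rw [W4, ← W_perm (lst u x y c) (tau hm), W_uf _ (fc u) fun j v w => ?_]
  · congr 1
    rw [W3]
    congr 1
    funext i
    have h1 : ((tau (a := a) hm) (Fin.natAdd a i)).val = if i.val < 2 then i.val else a + i.val := by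
      have hi : ¬ (Fin.natAdd a i).val < a := by simp
      simp only [tau, Equiv.ofBijective_apply]
      rw [dif_neg hi]
      by_cases h2 : i.val < 2
      · rw [if_pos h2, if_pos (by simpa using h2)]
        simp
      · rw [if_neg h2, if_neg (by simpa using h2)]
        simp
    unfold lst abc
    rw [h1]
    by_cases i0 : i.val = 0
    · simp [i0]
    by_cases i1 : i.val = 1
    · simp [i1]
    have i2 : ¬ i.val < 2 := by omega
    rw [if_neg i2, if_neg (by omega), if_neg (by omega), dif_neg (by omega), if_neg i0, if_neg i1]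
  · have h1 : ((tau (a := a) hm) (Fin.castAdd m j)) = ⟨j.val + 2, by omega⟩ := by
      simp [tau]
    rw [← thj_uf h0, h1]
    simp [lst]

/-! ### Restriction of the basic forms -/

theorem L2_ext {d : ℕ} {x y : L2 d} (h : ∀ u v, x u v = y u v) : x = y := by
  ext u v
  exact h u v

theorem rs_add (x y : L2 (a + m)) : rs (x + y) = rs x + rs y := rfl

theorem rs_sub (x y : L2 (a + m)) : rs (x - y) = rs x - rs y := rfl

theorem rs_smul (c : ℂ) (x : L2 (a + m)) : rs (c • x) = c • rs x := rfl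

theorem rs_zero : rs (0 : L2 (a + m)) = 0 := rfl

theorem rs_sum {ι : Type} (t : Finset ι) (x : ι → L2 (a + m)) :
    rs (∑ k ∈ t, x k) = ∑ k ∈ t, rs (x k) := by
  refine L2_ext fun u v => ?_
  simp [rs_apply]

theorem rs_kf (w : Matrix (Fin (a + m)) (Fin (a + m)) ℂ) :
    rs (kf w) = kf (w.submatrix (Fin.natAdd a) (Fin.natAdd a)) := by
  refine L2_ext fun u v => ?_
  show Complex.I / 2 * ∑ j, ∑ k, w j k * (inc a m u j * conj (inc a m v k) -
    inc a m v j * conj (inc a m u k)) = Complex.I / 2 * ∑ j, ∑ k,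
      w (Fin.natAdd a j) (Fin.natAdd a k) * (u j * conj (v k) - v j * conj (u k))
  simp [Fin.sum_univ_add]

theorem rs_tf (w : Matrix (Fin (a + m)) (Fin (a + m)) ℂ) :
    rs (tf w) = tf (w.submatrix (Fin.natAdd a) (Fin.natAdd a)) := by
  refine L2_ext fun u v => ?_
  show ∑ j, ∑ k, w j k * (inc a m u j * inc a m v k) = ∑ j, ∑ k,
      w (Fin.natAdd a j) (Fin.natAdd a k) * (u j * v k)
  simp [Fin.sum_univ_add]

theorem rs_cj (x : L2 (a + m)) : rs (cj x) = cj (rs x) := rfl

end Vale.Agent.P281.H751.HKT
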