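import Vale.Agent.P281.H125.HKT.Sl
import Vale.Agent.P281.H399.QT.Quo

/-!
# P281, project T-HKT (helper751), R4: the sheets of a fibre, by slices of adapted sheets, and the
restriction of forms to the fibre
-/

open Set Filter Metric MeasureTheory Vale.Agent.P272.K
open scoped Topology ContDiff ComplexConjugate ComplexOrder

set_option linter.unusedSectionVars false

noncomputable section

namespace Vale.Agent.P281.H751.HKT

open Vale.Agent.P281.H64.TK Vale.Agent.P281.H64.TK.TS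
open Vale.Agent.P281.H842.HKT Vale.Agent.P281.H125.HKT
open Vale.Agent.P281.H83.HK (kw kf tf ts Hol2)
open Vale.Agent.P281.H399.QT (One1 Qs pj quo)

variable {a m n₁ : ℕ} {E K : Type} [TopologicalSpace E] [Group K] [MulAction K E]

/-- The sheets `kx k` of `E` are adapted to the subset `X`: it is `{z | p1 z = s}`; `X` is embedded in
`E / K`. -/
structure Slc (S : Sheets (a + m) E K) (X : Set E) (s : Cm a) (kx : Fin n₁ → Fin S.N) : Prop where
  hs : s ∈ ball (0 : Cm a) 1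
  iff : ∀ k, ∀ z ∈ ball (0 : Cm (a + m)) 3, S.σ (kx k) z ∈ X ↔ p1 z = s
  cover : ∀ x ∈ X, ∃ k z, ‖z‖ < 1 ∧ S.σ (kx k) z = x
  ne : X.Nonempty
  sep : ∀ γ : K, ∀ x ∈ X, γ • x ∈ X → γ = 1

/-- The subset `X`, with the action of the trivial group. -/
def Sb (X : Set E) : Type := X

instance (X : Set E) : TopologicalSpace (Sb X) := inferInstanceAs (TopologicalSpace X)

instance (X : Set E) : MulAction One1 (Sb X) where
  smul _ x := x
  one_smul _ := rfl
  mul_smul _ _ _ := rfl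

instance (X : Set E) : ContinuousConstSMul One1 (Sb X) := ⟨fun _ => continuous_id⟩

instance (X : Set E) [T2Space E] : T2Space (Sb X) := inferInstanceAs (T2Space X)

theorem one1_act {X : Set E} (γ : One1) (x : Sb X) : γ • x = x := rfl

/-- The point `e` of `X`. -/
def mkX (X : Set E) (e : E) (h : e ∈ X) : Sb X := ⟨e, h⟩

/-- The inclusion. -/
def emX (X : Set E) (x : Sb X) : E := x.1

theorem emX_cont (X : Set E) : Continuous (emX X) := continuous_subtype_val

theorem emX_inj {X : Set E} {x y : Sb X} (h : emX X x = emX X y) : x = y := Subtype.ext h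

section
variable {S : Sheets (a + m) E K} {X : Set E} {s : Cm a} {kx : Fin n₁ → Fin S.N}

theorem Slc.hs3 (h : Slc S X s kx) : s ∈ ball (0 : Cm a) 3 :=
  ball_subset_ball (by norm_num) h.hs

theorem Slc.mem (h : Slc S X s kx) (k : Fin n₁) {y : Cm m} (hy : y ∈ ball (0 : Cm m) 3) :
    S.σ (kx k) (ap s y) ∈ X :=
  (h.iff k _ (ap_mem h.hs3 hy)).2 (p1_ap s y)

theorem Slc.eq (h : Slc S X s kx) {k : Fin n₁} {z : Cm (a + m)} (hz : z ∈ ball (0 : Cm (a + m)) 3)
    (hX : S.σ (kx k) z ∈ X) : z = ap s (p2 z) := by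
  have h1 := (h.iff k z hz).1 hX
  rw [← h1, ap_p]

open Classical in
/-- The sheets of the fibre. -/
def fσ (h : Slc S X s kx) (k : Fin n₁) (y : Cm m) : Sb X :=
  if hh : S.σ (kx k) (ap s y) ∈ X then mkX X _ hh else mkX X _ h.ne.some_mem

theorem fσ_val (h : Slc S X s kx) (k : Fin n₁) {y : Cm m} (hy : y ∈ ball (0 : Cm m) 3) :
    emX X (fσ h k y) = S.σ (kx k) (ap s y) := by
  unfold fσ
  rw [dif_pos (h.mem k hy)]
  rfl

theorem sig_cont (S : Sheets (a + m) E K) (i : Fin S.N) {z : Cm (a + m)}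
    (hz : z ∈ ball (0 : Cm (a + m)) 3) : ContinuousAt (S.σ i) z := (S.map_nhds i z hz).le

theorem ap_cont (s : Cm a) : Continuous (fun y : Cm m => ap s y) := (contDiff_ap s).continuous

theorem p2_cont : Continuous (fun z : Cm (a + m) => p2 z) :=
  continuous_snd.comp (pe a m).continuous

theorem p2_norm (z : Cm (a + m)) : ‖p2 z‖ ≤ ‖z‖ := by
  rw [norm_eq]
  exact le_max_right _ _

theorem fσ_cont (h : Slc S X s kx) (k : Fin n₁) {y : Cm m} (hy : y ∈ ball (0 : Cm m) 3) :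
    ContinuousAt (fσ h k) y := by
  have h1 : ContinuousAt (fun y => emX X (fσ h k y)) y := by
    have h2 : ContinuousAt (fun y => S.σ (kx k) (ap s y)) y :=
      ContinuousAt.comp (f := fun y : Cm m => ap s y) (g := S.σ (kx k))
        (sig_cont S (kx k) (ap_mem h.hs3 hy)) (ap_cont s).continuousAt
    refine h2.congr ?_
    filter_upwards [isOpen_ball.mem_nhds hy] with u hu
    exact (fσ_val h k hu).symm
  exact (Topology.IsInducing.subtypeVal.continuousAt_iff).2 h1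

theorem fσ_map (h : Slc S X s kx) (k : Fin n₁) {y : Cm m} (hy : y ∈ ball (0 : Cm m) 3) :
    Filter.map (fσ h k) (𝓝 y) = 𝓝 (fσ h k y) := by
  refine le_antisymm (fσ_cont h k hy) ?_
  intro U hU
  have hU' : fσ h k ⁻¹' U ∈ 𝓝 y := hU
  have e0 : 𝓝 (fσ h k y) = Filter.comap (emX X) (𝓝 (S.σ (kx k) (ap s y))) := by
    rw [← fσ_val h k hy]
    exact Topology.IsInducing.subtypeVal.nhds_eq_comap _
  rw [e0]
  have hz := ap_mem h.hs3 hy
  have hV : {u : Cm (a + m) | u ∈ ball (0 : Cm (a + m)) 3 ∧ p2 u ∈ fσ h k ⁻¹' U} ∈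
      𝓝 (ap s y) := by
    refine Filter.inter_mem (isOpen_ball.mem_nhds hz) ?_
    have h1 : Tendsto (fun z : Cm (a + m) => p2 z) (𝓝 (ap s y)) (𝓝 y) := by
      have := (p2_cont (a := a) (m := m)).tendsto (ap s y)
      rwa [p2_ap] at this
    exact h1 hU'
  have h2 : S.σ (kx k) '' {u : Cm (a + m) | u ∈ ball (0 : Cm (a + m)) 3 ∧
      p2 u ∈ fσ h k ⁻¹' U} ∈ 𝓝 (S.σ (kx k) (ap s y)) := by
    rw [← S.map_nhds (kx k) _ hz]
    exact Filter.image_mem_map hV
  refine Filter.mem_comap.2 ⟨_, h2, ?_⟩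
  rintro x ⟨u, ⟨hu1, hu2⟩, hu⟩
  have hx : S.σ (kx k) u ∈ X := by
    rw [hu]
    exact x.2
  have h3 := h.eq hu1 hx
  have h4 : p2 u ∈ ball (0 : Cm m) 3 := ((mem_ball_iff u 3).1 hu1).2
  have h5 : fσ h k (p2 u) = x := emX_inj (by rw [fσ_val h k h4, ← h3, hu])
  rw [← h5]
  exact hu2

variable [T2Space E]

/-- **The fibre.** -/
def fib (h : Slc S X s kx) : Sheets m (Sb X) One1 where
  N := n₁
  σ := fσ h
  map_nhds k y hy := fσ_map h k hy
  inj k y hy y' hy' γ he := by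
    have h1 := congrArg (emX X) (show fσ h k y = fσ h k y' from he)
    rw [fσ_val h k hy, fσ_val h k hy'] at h1
    have h2 := (S.inj (kx k) _ (ap_mem h.hs3 hy) _ (ap_mem h.hs3 hy') 1
      (by rw [one_smul]; exact h1)).2
    have h3 := congrArg p2 h2
    rw [p2_ap, p2_ap] at h3
    exact ⟨Subsingleton.elim _ _, h3⟩
  cover e := by
    obtain ⟨k, z, hz, hk⟩ := h.cover (emX X e) e.2
    have hz3 : z ∈ ball (0 : Cm (a + m)) 3 := mem_ball_zero_iff.2 (by linarith)
    have hX : S.σ (kx k) z ∈ X := by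
      rw [hk]
      exact e.2
    have h1 := h.eq hz3 hX
    have h2 : p2 z ∈ ball (0 : Cm m) 3 := ((mem_ball_iff z 3).1 hz3).2
    refine ⟨1, k, p2 z, (p2_norm z).trans_lt hz, emX_inj ?_⟩
    show emX X (fσ h k (p2 z)) = _
    rw [fσ_val h k h2, ← h1, hk]
  closed k r hr := by
    have e1 : {e : Sb X | ∃ (γ : One1) (z : Cm m), ‖z‖ ≤ r ∧ γ • fσ h k z = e} =
        fσ h k '' closedBall 0 r := by
      ext e
      constructor
      · rintro ⟨γ, z, hz, rfl⟩
        exact ⟨z, mem_closedBall_zero_iff.2 hz, rfl⟩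
      · rintro ⟨z, hz, rfl⟩
        exact ⟨1, z, mem_closedBall_zero_iff.1 hz, rfl⟩
    rw [e1]
    refine ((isCompact_closedBall (0 : Cm m) r).image_of_continuousOn fun z hz => ?_).isClosed
    exact (fσ_cont h k (mem_ball_zero_iff.2
      ((mem_closedBall_zero_iff.1 hz).trans_lt hr))).continuousWithinAt
  hol i j z hz w hw γ he := by
    have h1 := congrArg (emX X) (show fσ h i z = fσ h j w from he)
    rw [fσ_val h i hz, fσ_val h j hw] at h1
    obtain ⟨θ, t1, t2, t3⟩ := S.hol (kx i) (kx j) _ (ap_mem h.hs3 hz) _ (ap_mem h.hs3 hw) 1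
      (by rw [one_smul]; exact h1)
    have hap : AnalyticAt ℂ (fun y : Cm m => ap s y) z := by
      have h2 : AnalyticAt ℂ (fun y : Cm m => (s, y)) z := analyticAt_const.prod analyticAt_id
      exact (((pe a m).symm : Cm a × Cm m →L[ℂ] Cm (a + m)).analyticAt _).fun_comp h2
    have k2 : AnalyticAt ℂ (fun u : Cm (a + m) => p2 u) (θ (ap s z)) :=
      ((ContinuousLinearMap.snd ℂ (Cm a) (Cm m)).comp
        (pe a m : Cm (a + m) →L[ℂ] Cm a × Cm m)).analyticAt _
    refine ⟨fun y => p2 (θ (ap s y)), k2.fun_comp (f := fun y : Cm m => θ (ap s y))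
      (t1.fun_comp (f := fun y : Cm m => ap s y) hap), ?_, ?_⟩
    · show p2 (θ (ap s z)) = w
      rw [t2, p2_ap]
    · have c1 : Tendsto (fun y : Cm m => ap s y) (𝓝 z) (𝓝 (ap s z)) := (ap_cont s).tendsto z
      have c2 : ∀ᶠ u in 𝓝 (ap s z), θ u ∈ ball (0 : Cm (a + m)) 3 :=
        t1.continuousAt.eventually (isOpen_ball.mem_nhds (by rw [t2]; exact ap_mem h.hs3 hw))
      filter_upwards [c1.eventually t3, c1.eventually c2, isOpen_ball.mem_nhds hz] with y b1 b2 b3
      rw [one_smul] at b1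
      refine emX_inj ?_
      show emX X (fσ h i y) = emX X (fσ h j (p2 (θ (ap s y))))
      have b4 : S.σ (kx j) (θ (ap s y)) ∈ X := by
        rw [← b1]
        exact h.mem i b3
      rw [fσ_val h i b3, fσ_val h j ((mem_ball_iff _ 3).1 b2).2, ← h.eq b2 b4, b1]

@[simp] theorem fib_N (h : Slc S X s kx) : (fib h).N = n₁ := rfl

theorem fib_val (h : Slc S X s kx) (k : Fin n₁) {y : Cm m} (hy : y ∈ ball (0 : Cm m) 3) :
    emX X ((fib h).σ k y) = S.σ (kx k) (ap s y) := fσ_val h k hy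

end

/-! ### The inclusion in `E / K` -/

variable (K) in
/-- The map to `E / K`. -/
def eQ (X : Set E) (x : Sb X) : Qs K E := pj K (emX X x)

section
variable {S : Sheets (a + m) E K} {X : Set E} {s : Cm a} {kx : Fin n₁ → Fin S.N}
  [ContinuousConstSMul K E] [T2Space E]

omit [T2Space E] in
theorem eQ_cont (X : Set E) : Continuous (eQ K X) := H399.QT.continuous_pj.comp (emX_cont X)

theorem em_tr (h : Slc S X s kx) (k : Fin n₁) {y : Cm m} (hy : y ∈ ball (0 : Cm m) 3) :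
    Trg (fib h) (quo S) (eQ K X) k (kx k) y (ap s y) (fun y => ap s y) := by
  refine ⟨(contDiff_ap s).contDiffAt, rfl, ?_⟩
  filter_upwards [isOpen_ball.mem_nhds hy] with u hu
  exact congrArg (pj K) (fib_val h k hu)

theorem em_has (h : Slc S X s kx) : HasTrg (fib h) (quo S) (eQ K X) := by
  intro i j z hz z' hz' e
  have e' : (quo S).σ (kx i) (ap s z) = (quo S).σ j z' := by
    rw [← e]
    exact (congrArg (pj K) (fib_val h i hz)).symm
  obtain ⟨θ, hθ⟩ := hasTrg_id (quo S) (kx i) j (ap s z) (ap_mem h.hs3 hz) z' hz' e'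
  have h3 := Trg.comp (em_tr h i hz) hθ
  rw [Function.id_comp] at h3
  exact ⟨_, h3⟩

end

/-! ### Restriction of forms -/

/-- The restriction of a 2-form. -/
def rst {S : Sheets (a + m) E K} (kx : Fin n₁ → Fin S.N) (s : Cm a)
    (x : Fin S.N → Cm (a + m) → L2 (a + m)) : Fin n₁ → Cm m → L2 m :=
  fun k y => rs (x (kx k) (ap s y))

/-- The restriction of a matrix. -/
def rstw {S : Sheets (a + m) E K} (kx : Fin n₁ → Fin S.N) (s : Cm a)
    (w : Fin S.N → Cm (a + m) → Matrix (Fin (a + m)) (Fin (a + m)) ℂ) :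
    Fin n₁ → Cm m → Matrix (Fin m) (Fin m) ℂ :=
  fun k y => (w (kx k) (ap s y)).submatrix (Fin.natAdd a) (Fin.natAdd a)

section
variable {S : Sheets (a + m) E K} {X : Set E} {s : Cm a} {kx : Fin n₁ → Fin S.N}
  [ContinuousConstSMul K E] [T2Space E]

/-- The restriction is the pull-back. -/
theorem rst_pull (h : Slc S X s kx) {x : Fin S.N → Cm (a + m) → L2 (a + m)}
    (hx : F2On (quo S) univ x) : Pullg (fib h) (quo S) (eQ K X) (rst kx s x) x := by
  have h0 : ∀ k : Fin n₁, ∀ z ∈ ball (0 : Cm m) 3,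
      rst kx s x k z = pb2 (fib h) (quo S) (eQ K X) x k z := by
    intro k z hz
    rw [pb2_eq hx (ap_mem h.hs3 hz) (mem_univ _) (em_tr h k hz), (hasFDerivAt_ap s z).fderiv]
    rfl
  intro k q z hz z' hz' ψ hψ u v
  exact (congrArg (fun L : L2 m => L u v) (h0 k z hz)).trans
    (pb2_pull hx k q z hz z' hz' ψ hψ u v)

theorem rst_cl2 (h : Slc S X s kx) {x : Fin S.N → Cm (a + m) → L2 (a + m)} (hx : Cl2 (quo S) x) :
    Cl2 (fib h) (rst kx s x) :=
  cl2_of_pull (eQ_cont X) (em_has h) (rst_pull h hx.toF2On) hx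

theorem rst_real (h : Slc S X s kx) {x : Fin S.N → Cm (a + m) → L2 (a + m)} (hx : Real2 (quo S) x) :
    Real2 (fib h) (rst kx s x) := fun k _ hy _ _ => hx (kx k) _ (ap_mem h.hs3 hy) _ _

theorem rst_int (h : Slc S X s kx) {x : Fin S.N → Cm (a + m) → L2 (a + m)}
    (hx : F2On (quo S) univ x) (hi : IsInt (quo S) x) : IsInt (fib h) (rst kx s x) :=
  pb_int (eQ_cont X) (em_has h) (rst_pull h hx) hi

theorem rst_exact (h : Slc S X s kx) {x : Fin S.N → Cm (a + m) → L2 (a + m)}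
    (hx : F2On (quo S) univ x) (he : Exact (quo S) x) : Exact (fib h) (rst kx s x) :=
  pb_exact (eQ_cont X) (em_has h) (rst_pull h hx) he

omit [ContinuousConstSMul K E] [T2Space E] in
theorem rst_sub_sum {n : ℕ} (x : Fin S.N → Cm (a + m) → L2 (a + m)) (c : Fin n → ℂ)
    (b : Fin n → Fin S.N → Cm (a + m) → L2 (a + m)) :
    rst kx s (fun q z => x q z - ∑ k, c k • b k q z) =
      fun j y => rst kx s x j y - ∑ k, c k • rst kx s (b k) j y := by
  funext j y
  exact rs_sub_sum _ _ _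

omit [ContinuousConstSMul K E] [T2Space E] in
theorem rst_kw (w : Fin S.N → Cm (a + m) → Matrix (Fin (a + m)) (Fin (a + m)) ℂ) :
    rst kx s (kw w) = kw (rstw kx s w) := by
  funext j y
  exact rs_kf _

omit [ContinuousConstSMul K E] [T2Space E] in
theorem rst_ts (w : Fin S.N → Cm (a + m) → Matrix (Fin (a + m)) (Fin (a + m)) ℂ) :
    rst kx s (ts w) = ts (rstw kx s w) := by
  funext j y
  exact rs_tf _

/-! ### Transition maps of the fibre -/

/-- A transition map of the fibre is the restriction of one of `M`. -/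
theorem exists_ext (h : Slc S X s kx) {i j : Fin n₁} {y y' : Cm m} (hy : y ∈ ball (0 : Cm m) 3)
    (hy' : y' ∈ ball (0 : Cm m) 3) {θ : Cm m → Cm m} (h1 : AnalyticAt ℂ θ y) (h2 : θ y = y')
    (h3 : ∀ᶠ u in 𝓝 y, (fib h).σ i u = (fib h).σ j (θ u)) :
    ∃ Θ : Cm (a + m) → Cm (a + m), AnalyticAt ℂ Θ (ap s y) ∧ Θ (ap s y) = ap s y' ∧
      (∀ᶠ u in 𝓝 (ap s y), S.σ (kx i) u = S.σ (kx j) (Θ u)) ∧
      ∀ᶠ u in 𝓝 y, Θ (ap s u) = ap s (θ u) := by
  have e0 : S.σ (kx i) (ap s y) = S.σ (kx j) (ap s y') := by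
    have := congrArg (emX X) h3.self_of_nhds
    rw [h2] at this
    rwa [fib_val h i hy, fib_val h j hy'] at this
  obtain ⟨Θ, t1, t2, t3⟩ := S.hol (kx i) (kx j) _ (ap_mem h.hs3 hy) _ (ap_mem h.hs3 hy') 1
    (by rw [one_smul]; exact e0)
  have t3' : ∀ᶠ u in 𝓝 (ap s y), S.σ (kx i) u = S.σ (kx j) (Θ u) := by
    filter_upwards [t3] with u hu
    rw [hu, one_smul]
  refine ⟨Θ, t1, t2, t3', ?_⟩
  have c1 : Tendsto (fun y : Cm m => ap s y) (𝓝 y) (𝓝 (ap s y)) := (ap_cont s).tendsto y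
  have c2 : ∀ᶠ u in 𝓝 (ap s y), Θ u ∈ ball (0 : Cm (a + m)) 3 :=
    t1.continuousAt.eventually (isOpen_ball.mem_nhds (by rw [t2]; exact ap_mem h.hs3 hy'))
  have c3 : ∀ᶠ u in 𝓝 y, θ u ∈ ball (0 : Cm m) 3 :=
    h1.continuousAt.eventually (isOpen_ball.mem_nhds (by rw [h2]; exact hy'))
  filter_upwards [c1.eventually t3', c1.eventually c2, c3, h3, isOpen_ball.mem_nhds hy]
    with u b1 b2 b3 b4 b5
  have b6 := congrArg (emX X) b4
  rw [fib_val h i b5, fib_val h j b3, b1] at b6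
  exact (S.inj (kx j) _ b2 _ (ap_mem h.hs3 b3) 1 (by rw [one_smul]; exact b6)).2

theorem jac_ext {θ : Cm m → Cm m} {Θ : Cm (a + m) → Cm (a + m)} {y : Cm m}
    (h1 : AnalyticAt ℂ θ y) (t1 : AnalyticAt ℂ Θ (ap s y))
    (t4 : ∀ᶠ u in 𝓝 y, Θ (ap s u) = ap s (θ u)) :
    (∀ (l : Fin a) (k : Fin m), jac Θ (ap s y) (Fin.castAdd m l) (Fin.natAdd a k) = 0) ∧
      ∀ l k : Fin m, jac Θ (ap s y) (Fin.natAdd a l) (Fin.natAdd a k) = jac θ y l k := by
  have g1 : HasFDerivAt (𝕜 := ℂ) (fun u : Cm m => ap s u)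
      (((pe a m).symm : Cm a × Cm m →L[ℂ] Cm (a + m)).comp
        (ContinuousLinearMap.inr ℂ (Cm a) (Cm m))) y := by
    have c1 : HasFDerivAt (𝕜 := ℂ) (fun u : Cm m => (s, u)) (ContinuousLinearMap.inr ℂ _ _) y :=
      hasFDerivAt_prodMk_right s y
    exact ((pe a m).symm : Cm a × Cm m →L[ℂ] Cm (a + m)).hasFDerivAt.comp y c1
  have g2 := (t1.differentiableAt.hasFDerivAt).comp y g1
  have g1' : HasFDerivAt (𝕜 := ℂ) (fun u : Cm m => ap s u)
      (((pe a m).symm : Cm a × Cm m →L[ℂ] Cm (a + m)).comp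
        (ContinuousLinearMap.inr ℂ (Cm a) (Cm m))) (θ y) := by
    have c1 : HasFDerivAt (𝕜 := ℂ) (fun u : Cm m => (s, u)) (ContinuousLinearMap.inr ℂ _ _)
      (θ y) := hasFDerivAt_prodMk_right s (θ y)
    exact ((pe a m).symm : Cm a × Cm m →L[ℂ] Cm (a + m)).hasFDerivAt.comp (θ y) c1
  have g3 := g1'.comp y h1.differentiableAt.hasFDerivAt
  have g4 : HasFDerivAt (𝕜 := ℂ) (Θ ∘ fun u : Cm m => ap s u) _ y :=
    g3.congr_of_eventuallyEq (by filter_upwards [t4] with u hu using hu)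
  have g5 := g2.unique g4
  have hk : ∀ k : Fin m, fderiv ℂ Θ (ap s y) (Pi.single (Fin.natAdd a k) 1) =
      ap 0 (fderiv ℂ θ y (Pi.single k 1)) := by
    intro k
    have g6 := congrArg (fun L : Cm m →L[ℂ] Cm (a + m) => L (Pi.single k 1)) g5
    have g7 : fderiv ℂ Θ (ap s y) (ap 0 (Pi.single k 1)) =
      ap 0 (fderiv ℂ θ y (Pi.single k 1)) := g6
    have g8 : ap 0 (Pi.single k 1 : Cm m) = (Pi.single (Fin.natAdd a k) 1 : Cm (a + m)) := by
      rw [← inc_single]
      funext l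
      refine Fin.addCases (fun l => ?_) (fun l => ?_) l
      · simp [ap]
      · simp [ap]
    rw [← g8]
    exact g7
  constructor
  · intro l k
    show fderiv ℂ Θ (ap s y) (Pi.single (Fin.natAdd a k) 1) (Fin.castAdd m l) = 0
    rw [hk]
    simp [ap]
  · intro l k
    show fderiv ℂ Θ (ap s y) (Pi.single (Fin.natAdd a k) 1) (Fin.natAdd a l) = _
    rw [hk]
    simp [ap, jac]

/-- **The restriction of a Kähler metric.** -/
theorem rstw_kah (h : Slc S X s kx)
    {w : Fin S.N → Cm (a + m) → Matrix (Fin (a + m)) (Fin (a + m)) ℂ}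
    (hw : Kah (quo S) w) : Kah (fib h) (rstw kx s w) where
  smooth j k l := by
    have h1 := hw.smooth (kx j) (Fin.natAdd a k) (Fin.natAdd a l)
    exact h1.comp (contDiff_ap s).contDiffOn fun y hy => ap_mem h.hs3 hy
  posDef j y hy := (hw.posDef (kx j) _ (ap_mem h.hs3 hy)).submatrix (Fin.natAdd_injective m a)
  closed j y hy k l p := by
    have hd : ∀ k l, DifferentiableAt ℝ (fun z => w (kx j) z k l) (ap s y) := fun k l =>
      ((hw.smooth (kx j) k l).contDiffAt (isOpen_ball.mem_nhds (ap_mem h.hs3 hy))).differentiableAt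
        (by simp)
    have h1 := dz_ap s y (hd (Fin.natAdd a k) (Fin.natAdd a l)) p
    have h2 := dz_ap s y (hd (Fin.natAdd a p) (Fin.natAdd a l)) k
    have h3 := hw.closed (kx j) _ (ap_mem h.hs3 hy) (Fin.natAdd a k) (Fin.natAdd a l)
      (Fin.natAdd a p)
    exact h1.trans (h3.trans h2.symm)
  change i j y hy y' hy' γ θ h1 h2 h3 := by
    obtain ⟨Θ, t1, t2, t3, t4⟩ := exists_ext h (i := i) (j := j) hy hy' h1 h2 h3
    have hc := hw.change (kx i) (kx j) (ap s y) (ap_mem h.hs3 hy) (ap s y') (ap_mem h.hs3 hy') 1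
      Θ t1 t2 (by
        filter_upwards [t3] with u hu
        exact congrArg (pj K) hu)
    obtain ⟨j1, j2⟩ := jac_ext h1 t1 t4
    ext k k'
    have e := congrFun (congrFun hc (Fin.natAdd a k)) (Fin.natAdd a k')
    simp only [Matrix.mul_apply, Matrix.transpose_apply, Matrix.map_apply, Fin.sum_univ_add, j1,
      j2, zero_mul, mul_zero, map_zero, Finset.sum_const_zero, zero_add] at e
    simp only [rstw, Matrix.submatrix_apply, Matrix.mul_apply, Matrix.transpose_apply,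
      Matrix.map_apply]
    exact e

theorem dd_ap {f : Cm (a + m) → ℂ} (s : Cm a) (y : Cm m) (hf : DifferentiableAt ℂ f (ap s y))
    (l : Fin m) : dd l (fun y => f (ap s y)) y = dd (Fin.natAdd a l) f (ap s y) := by
  have g1 : HasFDerivAt (𝕜 := ℂ) (fun u : Cm m => ap s u)
      (((pe a m).symm : Cm a × Cm m →L[ℂ] Cm (a + m)).comp
        (ContinuousLinearMap.inr ℂ (Cm a) (Cm m))) y := by
    have c1 : HasFDerivAt (𝕜 := ℂ) (fun u : Cm m => (s, u)) (ContinuousLinearMap.inr ℂ _ _) y :=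
      hasFDerivAt_prodMk_right s y
    exact ((pe a m).symm : Cm a × Cm m →L[ℂ] Cm (a + m)).hasFDerivAt.comp y c1
  have g2 : HasFDerivAt (𝕜 := ℂ) (fun u : Cm m => f (ap s u)) _ y := (hf.hasFDerivAt).comp y g1
  have g8 : ap 0 (Pi.single l 1 : Cm m) = (Pi.single (Fin.natAdd a l) 1 : Cm (a + m)) := by
    rw [← inc_single]
    funext l
    refine Fin.addCases (fun l => ?_) (fun l => ?_) l
    · simp [ap]
    · simp [ap]
  unfold dd
  rw [g2.fderiv, ← g8]
  rfl

/-- The restriction of a closed holomorphic 2-form. -/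
theorem rstw_hol2 (h : Slc S X s kx)
    {σ : Fin S.N → Cm (a + m) → Matrix (Fin (a + m)) (Fin (a + m)) ℂ}
    (hσ : Hol2 (quo S) σ) : Hol2 (fib h) (rstw kx s σ) where
  hol j k l := by
    have h1 := hσ.hol (kx j) (Fin.natAdd a k) (Fin.natAdd a l)
    have h2 : Differentiable ℂ (fun y : Cm m => ap s y) := fun y => by
      have c1 : HasFDerivAt (𝕜 := ℂ) (fun u : Cm m => (s, u)) (ContinuousLinearMap.inr ℂ _ _) y :=
        hasFDerivAt_prodMk_right s y
      exact (((pe a m).symm : Cm a × Cm m →L[ℂ] Cm (a + m)).hasFDerivAt.comp y c1).differentiableAt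
    exact h1.comp h2.differentiableOn fun y hy => ap_mem h.hs3 hy
  alt j y hy := by
    have h1 := hσ.alt (kx j) _ (ap_mem h.hs3 hy)
    ext k l
    exact congrFun (congrFun h1 (Fin.natAdd a k)) (Fin.natAdd a l)
  closed j y hy k l p := by
    have hd : ∀ k l, DifferentiableAt ℂ (fun z => σ (kx j) z k l) (ap s y) := fun k l =>
      (hσ.hol (kx j) k l).differentiableAt (isOpen_ball.mem_nhds (ap_mem h.hs3 hy))
    have h1 := dd_ap s y (hd (Fin.natAdd a k) (Fin.natAdd a l)) p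
    have h2 := dd_ap s y (hd (Fin.natAdd a l) (Fin.natAdd a p)) k
    have h4 := dd_ap s y (hd (Fin.natAdd a p) (Fin.natAdd a k)) l
    have h3 := hσ.closed (kx j) _ (ap_mem h.hs3 hy) (Fin.natAdd a k) (Fin.natAdd a l)
      (Fin.natAdd a p)
    rw [← h1, ← h2, ← h4] at h3
    exact h3
  change i j y hy y' hy' θ h1 h2 h3 := by
    obtain ⟨Θ, t1, t2, t3, t4⟩ := exists_ext h (i := i) (j := j) hy hy' h1 h2 h3
    have hc := hσ.change (kx i) (kx j) (ap s y) (ap_mem h.hs3 hy) (ap s y') (ap_mem h.hs3 hy')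
      Θ t1 t2 (by
        filter_upwards [t3] with u hu
        exact congrArg (pj K) hu)
    obtain ⟨j1, j2⟩ := jac_ext h1 t1 t4
    ext k k'
    have e := congrFun (congrFun hc (Fin.natAdd a k)) (Fin.natAdd a k')
    simp only [Matrix.mul_apply, Matrix.transpose_apply, Fin.sum_univ_add, j1,
      j2, zero_mul, mul_zero, Finset.sum_const_zero, zero_add] at e
    simp only [rstw, Matrix.submatrix_apply, Matrix.mul_apply, Matrix.transpose_apply]
    exact e

/-! ### Markings -/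

/-- **The integer matrix of the restriction.** -/
theorem rst_J {n r : ℕ} (h : Slc S X s kx) (M₁ : Mark2 (quo S) n) (M' : Mark2 (fib h) r) :
    ∃ J : Matrix (Fin r) (Fin n) ℤ, (∀ k l, M'.cl (rst kx s (M₁.b k)) l = (J l k : ℂ)) ∧
      ∀ x, Cl2 (quo S) x → M'.cl (rst kx s x) = (J.map (Int.cast : ℤ → ℂ)).mulVec (M₁.cl x) := by
  have h1 : ∀ k l, ∃ N : ℤ, M'.cl (rst kx s (M₁.b k)) l = N := fun k l =>
    M'.intcl _ (rst_cl2 h (M₁.closed k)) (rst_int h (M₁.closed k).toF2On (M₁.int k)) l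
  choose j hj using h1
  refine ⟨Matrix.of fun l k => j k l, hj, fun x hx => ?_⟩
  refine H594.TS.cl_eq M' (rst_cl2 h hx) ?_
  have e0 : Cl2 (quo S) fun q z => x q z - ∑ k, M₁.cl x k • M₁.b k q z :=
    H624.TS.cl2_sub hx (cl2_sum (M₁.cl x) M₁.closed)
  have e1 : Exact (fib h) fun i z =>
      rst kx s x i z - ∑ k, M₁.cl x k • rst kx s (M₁.b k) i z :=
    H594.TS.exact_congr (rst_exact h e0.toF2On (M₁.ex x hx)) fun i z _ => rs_sub_sum _ _ _
  have e2 : ∀ k, Exact (fib h) fun i' z => rst kx s (M₁.b k) i' z -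
      ∑ l, M'.cl (rst kx s (M₁.b k)) l • M'.b l i' z := fun k =>
    M'.ex _ (rst_cl2 h (M₁.closed k))
  have e3 := exact_sum (M₁.cl x) e2
  refine H594.TS.exact_congr (exact_add e1 e3) fun i' z _ => ?_
  ext u v
  simp only [add_apply, sub_apply, sum_apply, smul_apply, smul_eq_mul, Matrix.mulVec,
    dotProduct, Matrix.map_apply, Matrix.of_apply, hj, mul_sub, Finset.sum_sub_distrib,
    Finset.mul_sum, Finset.sum_mul]
  rw [Finset.sum_comm]
  have e4 : ∀ l k, M₁.cl x k * ((j k l : ℂ) * M'.b l i' z u v) =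
      (j k l : ℂ) * M₁.cl x k * M'.b l i' z u v := fun l k => by ring
  simp only [e4]
  exact sub_add_sub_cancel _ _ _

end

end Vale.Agent.P281.H751.HKT
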