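import Vale.Agent.P281.H152.RC.Defs
import Vale.Agent.P281.H751.HKT.FibS

/-!
# P281, project RADC (helper751), R4: forms on the fibre `fibS hA ht`
-/

open Set Filter Metric MeasureTheory Vale.Agent.P272.K
open scoped Topology ContDiff ComplexConjugate ComplexOrder

set_option linter.unusedSectionVars false

noncomputable section

namespace Vale.Agent.P281.H751.HKT.R

open Vale.Agent.P281.H64.TK Vale.Agent.P281.H64.TK.TS
open Vale.Agent.P281.H842.HKT Vale.Agent.P281.H125.HKT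
open Vale.Agent.P281.H83.HK (kw kf tf ts Hol2)
open Vale.Agent.P281.H399.QT (One1 Qs pj quo)
open Vale.Agent.P281.H152.RC
open Vale.Agent.P281.H751.HKT (ap_cont p2_cont p2_norm dd_ap jac_ext rs rs_kf rs_tf)

section
variable {a h : ℕ} {E K : Type} [TopologicalSpace E] [Group K] [MulAction K E]
  {S : Sheets (a + h) E K} {F : E → Fin a → ℂ} {c : K → Fin a → ℂ} {t₀ : Cm a} {ε : ℝ} {n : ℕ}
  [ContinuousConstSMul K E] [T2Space E]

/-- The inclusion in `E / K`. -/
def iQ (K : Type) {E : Type} [Group K] [MulAction K E] {a : ℕ} (F : E → Fin a → ℂ) (t : Fin a → ℂ)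
    (e : Fb F t) : Qs K E := pj K (inF F t e)

omit [T2Space E] in
theorem iQ_cont (F : E → Fin a → ℂ) (t : Fin a → ℂ) : Continuous (iQ K F t) :=
  H399.QT.continuous_pj.comp inF_cont

theorem fibS_val (hA : Adp S F c t₀ ε n) {t : Cm a} (ht : t ∈ ball (0 : Cm a) 1) (i : Fin n)
    {z : Cm h} (hz : z ∈ ball (0 : Cm h) 3) :
    inF F _ ((fibS hA ht).σ i z) = S.σ (Fin.castLE hA.le i) (ap t z) := fbσ_val hA ht i hz

theorem fibS_tr (hA : Adp S F c t₀ ε n) {t : Cm a} (ht : t ∈ ball (0 : Cm a) 1) (i : Fin n)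
    {z : Cm h} (hz : z ∈ ball (0 : Cm h) 3) :
    Trg (fibS hA ht) (quo S) (iQ K F _) i (Fin.castLE hA.le i) z (ap t z) (fun y => ap t y) := by
  refine ⟨(contDiff_ap t).contDiffAt, rfl, ?_⟩
  filter_upwards [isOpen_ball.mem_nhds hz] with u hu
  exact congrArg (pj K) (fibS_val hA ht i hu)

/-- **The inclusion is smooth.** -/
theorem fibS_has (hA : Adp S F c t₀ ε n) {t : Cm a} (ht : t ∈ ball (0 : Cm a) 1) :
    HasTrg (fibS hA ht) (quo S) (iQ K F (t₀ + (ε : ℂ) • t)) := by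
  intro i j z hz z' hz' e
  have e' : (quo S).σ (Fin.castLE hA.le i) (ap t z) = (quo S).σ j z' := by
    rw [← e]
    exact (congrArg (pj K) (fibS_val hA ht i hz)).symm
  obtain ⟨θ, hθ⟩ := hasTrg_id (quo S) (Fin.castLE hA.le i) j (ap t z) (ap_mem3 ht hz) z' hz' e'
  have h3 := Trg.comp (fibS_tr hA ht i hz) hθ
  rw [Function.id_comp] at h3
  exact ⟨_, h3⟩

/-- The slice is the pull-back. -/
theorem sl_pull (hA : Adp S F c t₀ ε n) {t : Cm a} (ht : t ∈ ball (0 : Cm a) 1)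
    {x : Fin S.N → Cm (a + h) → L2 (a + h)} (hx : F2On (quo S) univ x) :
    Pullg (fibS hA ht) (quo S) (iQ K F (t₀ + (ε : ℂ) • t)) (sl hA x t) x := by
  have h0 : ∀ k : Fin n, ∀ z ∈ ball (0 : Cm h) 3,
      sl hA x t k z = pb2 (fibS hA ht) (quo S) (iQ K F (t₀ + (ε : ℂ) • t)) x k z := by
    intro k z hz
    rw [pb2_eq hx (ap_mem3 ht hz) (mem_univ _) (fibS_tr hA ht k hz), (hasFDerivAt_ap t z).fderiv]
    rfl
  intro k q z hz z' hz' ψ hψ u v
  exact (congrArg (fun L : L2 h => L u v) (h0 k z hz)).trans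
    (pb2_pull hx k q z hz z' hz' ψ hψ u v)

theorem sl_cl2 (hA : Adp S F c t₀ ε n) {t : Cm a} (ht : t ∈ ball (0 : Cm a) 1)
    {x : Fin S.N → Cm (a + h) → L2 (a + h)} (hx : Cl2 (quo S) x) :
    Cl2 (fibS hA ht) (sl hA x t) :=
  cl2_of_pull (iQ_cont F _) (fibS_has hA ht) (sl_pull hA ht hx.toF2On) hx

theorem sl_real (hA : Adp S F c t₀ ε n) {t : Cm a} (ht : t ∈ ball (0 : Cm a) 1)
    {x : Fin S.N → Cm (a + h) → L2 (a + h)} (hx : Real2 (quo S) x) :
    Real2 (fibS hA ht) (sl hA x t) :=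
  fun k _ hy _ _ => hx (Fin.castLE hA.le k) _ (ap_mem3 ht hy) _ _

theorem sl_int (hA : Adp S F c t₀ ε n) {t : Cm a} (ht : t ∈ ball (0 : Cm a) 1)
    {x : Fin S.N → Cm (a + h) → L2 (a + h)} (hx : F2On (quo S) univ x) (hi : IsInt (quo S) x) :
    IsInt (fibS hA ht) (sl hA x t) :=
  pb_int (iQ_cont F _) (fibS_has hA ht) (sl_pull hA ht hx) hi

theorem sl_exact (hA : Adp S F c t₀ ε n) {t : Cm a} (ht : t ∈ ball (0 : Cm a) 1)
    {x : Fin S.N → Cm (a + h) → L2 (a + h)} (hx : F2On (quo S) univ x) (he : Exact (quo S) x) :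
    Exact (fibS hA ht) (sl hA x t) :=
  pb_exact (iQ_cont F _) (fibS_has hA ht) (sl_pull hA ht hx) he

omit [ContinuousConstSMul K E] [T2Space E] in
theorem sl_sub_sum {n' : ℕ} (hA : Adp S F c t₀ ε n) (t : Cm a)
    (x : Fin S.N → Cm (a + h) → L2 (a + h)) (cc : Fin n' → ℂ)
    (b : Fin n' → Fin S.N → Cm (a + h) → L2 (a + h)) :
    sl hA (fun q z => x q z - ∑ k, cc k • b k q z) t =
      fun j y => sl hA x t j y - ∑ k, cc k • sl hA (b k) t j y := by
  funext j y
  exact rs_sub_sum _ _ _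

omit [ContinuousConstSMul K E] [T2Space E] in
theorem sl_kw (hA : Adp S F c t₀ ε n) (t : Cm a)
    (w : Fin S.N → Cm (a + h) → Matrix (Fin (a + h)) (Fin (a + h)) ℂ) :
    sl hA (kw w) t = kw (slm hA w t) := by
  funext j y
  exact rs_kf _

omit [ContinuousConstSMul K E] [T2Space E] in
theorem sl_ts (hA : Adp S F c t₀ ε n) (t : Cm a)
    (w : Fin S.N → Cm (a + h) → Matrix (Fin (a + h)) (Fin (a + h)) ℂ) :
    sl hA (ts w) t = ts (slm hA w t) := by
  funext j y
  exact rs_tf _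

/-! ### Transition maps of the fibre -/

/-- A transition map of the fibre is the restriction of one of `S`. -/
theorem exists_ext (hA : Adp S F c t₀ ε n) {t : Cm a} (ht : t ∈ ball (0 : Cm a) 1) {i j : Fin n}
    {y y' : Cm h} (hy : y ∈ ball (0 : Cm h) 3)
    (hy' : y' ∈ ball (0 : Cm h) 3) {θ : Cm h → Cm h} (h1 : AnalyticAt ℂ θ y) (h2 : θ y = y')
    (h3 : ∀ᶠ u in 𝓝 y, (fibS hA ht).σ i u = (fibS hA ht).σ j (θ u)) :
    ∃ Θ : Cm (a + h) → Cm (a + h), AnalyticAt ℂ Θ (ap t y) ∧ Θ (ap t y) = ap t y' ∧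
      (∀ᶠ u in 𝓝 (ap t y), S.σ (Fin.castLE hA.le i) u = S.σ (Fin.castLE hA.le j) (Θ u)) ∧
      ∀ᶠ u in 𝓝 y, Θ (ap t u) = ap t (θ u) := by
  have e0 : S.σ (Fin.castLE hA.le i) (ap t y) = S.σ (Fin.castLE hA.le j) (ap t y') := by
    have := congrArg (inF F _) h3.self_of_nhds
    rw [h2] at this
    rwa [fibS_val hA ht i hy, fibS_val hA ht j hy'] at this
  obtain ⟨Θ, t1, t2, t3⟩ := S.hol (Fin.castLE hA.le i) (Fin.castLE hA.le j) _ (ap_mem3 ht hy) _
    (ap_mem3 ht hy') 1 (by rw [one_smul]; exact e0)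
  have t3' : ∀ᶠ u in 𝓝 (ap t y),
      S.σ (Fin.castLE hA.le i) u = S.σ (Fin.castLE hA.le j) (Θ u) := by
    filter_upwards [t3] with u hu
    rw [hu, one_smul]
  refine ⟨Θ, t1, t2, t3', ?_⟩
  have c1 : Tendsto (fun y : Cm h => ap t y) (𝓝 y) (𝓝 (ap t y)) := (ap_cont t).tendsto y
  have c2 : ∀ᶠ u in 𝓝 (ap t y), Θ u ∈ ball (0 : Cm (a + h)) 3 :=
    t1.continuousAt.eventually (isOpen_ball.mem_nhds (by rw [t2]; exact ap_mem3 ht hy'))
  have c3 : ∀ᶠ u in 𝓝 y, θ u ∈ ball (0 : Cm h) 3 :=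
    h1.continuousAt.eventually (isOpen_ball.mem_nhds (by rw [h2]; exact hy'))
  filter_upwards [c1.eventually t3', c1.eventually c2, c3, h3, isOpen_ball.mem_nhds hy]
    with u b1 b2 b3 b4 b5
  have b6 := congrArg (inF F _) b4
  rw [fibS_val hA ht i b5, fibS_val hA ht j b3, b1] at b6
  exact (S.inj (Fin.castLE hA.le j) _ b2 _ (ap_mem3 ht b3) 1 (by rw [one_smul]; exact b6)).2

/-- **The slice of a Kähler metric** (of the cover). -/
theorem slm_kah' (hA : Adp S F c t₀ ε n) {t : Cm a} (ht : t ∈ ball (0 : Cm a) 1)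
    {w : Fin S.N → Cm (a + h) → Matrix (Fin (a + h)) (Fin (a + h)) ℂ}
    (hw : Kah S w) : Kah (fibS hA ht) (slm hA w t) where
  smooth j k l := by
    have h1 := hw.smooth (Fin.castLE hA.le j) (Fin.natAdd a k) (Fin.natAdd a l)
    exact h1.comp (contDiff_ap t).contDiffOn fun y hy => ap_mem3 ht hy
  posDef j y hy := (hw.posDef (Fin.castLE hA.le j) _ (ap_mem3 ht hy)).submatrix
    (Fin.natAdd_injective h a)
  closed j y hy k l p := by
    have hd : ∀ k l, DifferentiableAt ℝ (fun z => w (Fin.castLE hA.le j) z k l) (ap t y) :=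
      fun k l => ((hw.smooth (Fin.castLE hA.le j) k l).contDiffAt
        (isOpen_ball.mem_nhds (ap_mem3 ht hy))).differentiableAt (by simp)
    have h1 := dz_ap t y (hd (Fin.natAdd a k) (Fin.natAdd a l)) p
    have h2 := dz_ap t y (hd (Fin.natAdd a p) (Fin.natAdd a l)) k
    have h3 := hw.closed (Fin.castLE hA.le j) _ (ap_mem3 ht hy) (Fin.natAdd a k) (Fin.natAdd a l)
      (Fin.natAdd a p)
    exact h1.trans (h3.trans h2.symm)
  change i j y hy y' hy' γ θ h1 h2 h3 := by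
    obtain ⟨Θ, t1, t2, t3, t4⟩ := exists_ext hA ht (i := i) (j := j) hy hy' h1 h2 h3
    have hc := hw.change (Fin.castLE hA.le i) (Fin.castLE hA.le j) (ap t y) (ap_mem3 ht hy)
      (ap t y') (ap_mem3 ht hy') 1 Θ t1 t2 (by
        filter_upwards [t3] with u hu
        rw [one_smul]
        exact hu)
    obtain ⟨j1, j2⟩ := jac_ext h1 t1 t4
    ext k k'
    have e := congrFun (congrFun hc (Fin.natAdd a k)) (Fin.natAdd a k')
    simp only [Matrix.mul_apply, Matrix.transpose_apply, Matrix.map_apply, Fin.sum_univ_add, j1,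
      j2, zero_mul, mul_zero, map_zero, Finset.sum_const_zero, zero_add] at e
    simp only [slm, Matrix.submatrix_apply, Matrix.mul_apply, Matrix.transpose_apply,
      Matrix.map_apply]
    exact e

/-- **The slice of a Kähler metric.** -/
theorem slm_kah (hA : Adp S F c t₀ ε n) {t : Cm a} (ht : t ∈ ball (0 : Cm a) 1)
    {w : Fin S.N → Cm (a + h) → Matrix (Fin (a + h)) (Fin (a + h)) ℂ}
    (hw : Kah (quo S) w) : Kah (fibS hA ht) (slm hA w t) where
  smooth j k l := by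
    have h1 := hw.smooth (Fin.castLE hA.le j) (Fin.natAdd a k) (Fin.natAdd a l)
    exact h1.comp (contDiff_ap t).contDiffOn fun y hy => ap_mem3 ht hy
  posDef j y hy := (hw.posDef (Fin.castLE hA.le j) _ (ap_mem3 ht hy)).submatrix
    (Fin.natAdd_injective h a)
  closed j y hy k l p := by
    have hd : ∀ k l, DifferentiableAt ℝ (fun z => w (Fin.castLE hA.le j) z k l) (ap t y) :=
      fun k l => ((hw.smooth (Fin.castLE hA.le j) k l).contDiffAt
        (isOpen_ball.mem_nhds (ap_mem3 ht hy))).differentiableAt (by simp)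
    have h1 := dz_ap t y (hd (Fin.natAdd a k) (Fin.natAdd a l)) p
    have h2 := dz_ap t y (hd (Fin.natAdd a p) (Fin.natAdd a l)) k
    have h3 := hw.closed (Fin.castLE hA.le j) _ (ap_mem3 ht hy) (Fin.natAdd a k) (Fin.natAdd a l)
      (Fin.natAdd a p)
    exact h1.trans (h3.trans h2.symm)
  change i j y hy y' hy' γ θ h1 h2 h3 := by
    obtain ⟨Θ, t1, t2, t3, t4⟩ := exists_ext hA ht (i := i) (j := j) hy hy' h1 h2 h3
    have hc := hw.change (Fin.castLE hA.le i) (Fin.castLE hA.le j) (ap t y) (ap_mem3 ht hy)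
      (ap t y') (ap_mem3 ht hy') 1 Θ t1 t2 (by
        filter_upwards [t3] with u hu
        exact congrArg (pj K) hu)
    obtain ⟨j1, j2⟩ := jac_ext h1 t1 t4
    ext k k'
    have e := congrFun (congrFun hc (Fin.natAdd a k)) (Fin.natAdd a k')
    simp only [Matrix.mul_apply, Matrix.transpose_apply, Matrix.map_apply, Fin.sum_univ_add, j1,
      j2, zero_mul, mul_zero, map_zero, Finset.sum_const_zero, zero_add] at e
    simp only [slm, Matrix.submatrix_apply, Matrix.mul_apply, Matrix.transpose_apply,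
      Matrix.map_apply]
    exact e

/-- The slice of a closed holomorphic 2-form. -/
theorem slm_hol2 (hA : Adp S F c t₀ ε n) {t : Cm a} (ht : t ∈ ball (0 : Cm a) 1)
    {σ : Fin S.N → Cm (a + h) → Matrix (Fin (a + h)) (Fin (a + h)) ℂ}
    (hσ : Hol2 (quo S) σ) : Hol2 (fibS hA ht) (slm hA σ t) where
  hol j k l := by
    have h1 := hσ.hol (Fin.castLE hA.le j) (Fin.natAdd a k) (Fin.natAdd a l)
    have h2 : Differentiable ℂ (fun y : Cm h => ap t y) := fun y => by
      have c1 : HasFDerivAt (𝕜 := ℂ) (fun u : Cm h => (t, u)) (ContinuousLinearMap.inr ℂ _ _) y :=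
        hasFDerivAt_prodMk_right t y
      exact (((pe a h).symm : Cm a × Cm h →L[ℂ] Cm (a + h)).hasFDerivAt.comp y c1).differentiableAt
    exact h1.comp h2.differentiableOn fun y hy => ap_mem3 ht hy
  alt j y hy := by
    have h1 := hσ.alt (Fin.castLE hA.le j) _ (ap_mem3 ht hy)
    ext k l
    exact congrFun (congrFun h1 (Fin.natAdd a k)) (Fin.natAdd a l)
  closed j y hy k l p := by
    have hd : ∀ k l, DifferentiableAt ℂ (fun z => σ (Fin.castLE hA.le j) z k l) (ap t y) :=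
      fun k l => (hσ.hol (Fin.castLE hA.le j) k l).differentiableAt
        (isOpen_ball.mem_nhds (ap_mem3 ht hy))
    have h1 := dd_ap t y (hd (Fin.natAdd a k) (Fin.natAdd a l)) p
    have h2 := dd_ap t y (hd (Fin.natAdd a l) (Fin.natAdd a p)) k
    have h4 := dd_ap t y (hd (Fin.natAdd a p) (Fin.natAdd a k)) l
    have h3 := hσ.closed (Fin.castLE hA.le j) _ (ap_mem3 ht hy) (Fin.natAdd a k) (Fin.natAdd a l)
      (Fin.natAdd a p)
    exact (congrArg₂ (· + ·) (congrArg₂ (· + ·) h1 h2) h4).trans h3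
  change i j y hy y' hy' θ h1 h2 h3 := by
    obtain ⟨Θ, t1, t2, t3, t4⟩ := exists_ext hA ht (i := i) (j := j) hy hy' h1 h2 h3
    have hc := hσ.change (Fin.castLE hA.le i) (Fin.castLE hA.le j) (ap t y) (ap_mem3 ht hy)
      (ap t y') (ap_mem3 ht hy') Θ t1 t2 (by
        filter_upwards [t3] with u hu
        exact congrArg (pj K) hu)
    obtain ⟨j1, j2⟩ := jac_ext h1 t1 t4
    ext k k'
    have e := congrFun (congrFun hc (Fin.natAdd a k)) (Fin.natAdd a k')
    simp only [Matrix.mul_apply, Matrix.transpose_apply, Fin.sum_univ_add, j1,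
      j2, zero_mul, mul_zero, Finset.sum_const_zero, zero_add] at e
    simp only [slm, Matrix.submatrix_apply, Matrix.mul_apply, Matrix.transpose_apply]
    exact e

/-! ### Markings -/

/-- **The integer matrix of the restriction.** -/
theorem sl_J {n' r : ℕ} (hA : Adp S F c t₀ ε n) {t : Cm a} (ht : t ∈ ball (0 : Cm a) 1)
    (M₁ : Mark2 (quo S) n') (M' : Mark2 (fibS hA ht) r) :
    ∃ J : Matrix (Fin r) (Fin n') ℤ, (∀ k l, M'.cl (sl hA (M₁.b k) t) l = (J l k : ℂ)) ∧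
      ∀ x, Cl2 (quo S) x → M'.cl (sl hA x t) = (J.map (Int.cast : ℤ → ℂ)).mulVec (M₁.cl x) := by
  have h1 : ∀ k l, ∃ N : ℤ, M'.cl (sl hA (M₁.b k) t) l = N := fun k l =>
    M'.intcl _ (sl_cl2 hA ht (M₁.closed k))
      (sl_int hA ht (M₁.closed k).toF2On (M₁.int k)) l
  choose j hj using h1
  refine ⟨Matrix.of fun l k => j k l, hj, fun x hx => ?_⟩
  refine H594.TS.cl_eq M' (sl_cl2 hA ht hx) ?_
  have e0 : Cl2 (quo S) fun q z => x q z - ∑ k, M₁.cl x k • M₁.b k q z :=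
    H624.TS.cl2_sub hx (cl2_sum (M₁.cl x) M₁.closed)
  have e1 : Exact (fibS hA ht) fun i z =>
      sl hA x t i z - ∑ k, M₁.cl x k • sl hA (M₁.b k) t i z :=
    H594.TS.exact_congr (sl_exact hA ht e0.toF2On (M₁.ex x hx)) fun i z _ => rs_sub_sum _ _ _
  have e2 : ∀ k, Exact (fibS hA ht) fun i' z => sl hA (M₁.b k) t i' z -
      ∑ l, M'.cl (sl hA (M₁.b k) t) l • M'.b l i' z := fun k =>
    M'.ex _ (sl_cl2 hA ht (M₁.closed k))
  have e3 := exact_sum (M₁.cl x) e2
  refine H594.TS.exact_congr (exact_add e1 e3) fun i' z _ => ?_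
  ext u v
  simp only [add_apply, sub_apply, sum_apply, smul_apply, smul_eq_mul, Matrix.mulVec,
    dotProduct, Matrix.map_apply, Matrix.of_apply, hj, mul_sub, Finset.sum_sub_distrib,
    Finset.mul_sum, Finset.sum_mul]
  rw [Finset.sum_comm]
  have e4 : ∀ l k, M₁.cl x k * ((j k l : ℂ) * M'.b l i' z u v) =
      (j k l : ℂ) * M₁.cl x k * M'.b l i' z u v := fun l k => by ring
  simp only [e4]
  exact sub_add_sub_cancel _ _ _

end

end Vale.Agent.P281.H751.HKT.R
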