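import Vale.Agent.P281.H152.RC.Spec
import Vale.Agent.P281.H751.HKT.FibR

/-!
# P281, project RADC (helper751), R4: `SliceStmt`
-/

open Set Filter Metric MeasureTheory Vale.Agent.P272.K
open scoped Topology ContDiff ComplexConjugate ComplexOrder

noncomputable section

namespace Vale.Agent.P281.H751.HKT.R

open Vale.Agent.P281.H64.TK Vale.Agent.P281.H64.TK.TS
open Vale.Agent.P281.H83.HK
open Vale.Agent.P281.H152.RC

/-- **R4.** -/
theorem slice : SliceStmt := by
  intro a h E K _ _ _ _ _ S F c t₀ ε n hA t ht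
  refine ⟨fun x hx => sl_cl2 hA ht hx, fun x hx => sl_real hA ht hx,
    fun x hx hi => sl_int hA ht hx.toF2On hi, fun x hx he => sl_exact hA ht hx.toF2On he,
    fun w hw => slm_kah' hA ht hw, fun s hs => slm_hol2 hA ht hs,
    fun w => ⟨sl_kw hA t w, sl_ts hA t w, ?_⟩⟩
  have h1 := sl_ts hA t w
  funext j y
  have h2 := congrFun (congrFun h1 j) y
  ext u v
  have h3 := congrArg (fun L : L2 h => L u v) h2
  exact congrArg (starRingEnd ℂ) h3

end Vale.Agent.P281.H751.HKT.R
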