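import Vale.Agent.P281.H83.HKT.Spec
import Vale.Agent.P281.H191.HKT.Th
import Vale.Agent.P281.H191.HKT.Arith

/-!
# P281, project T-HKT (helper751): `ArithStmt`, `TwoTStmt`, `BilTStmt`
-/

open Set Filter Metric MeasureTheory Vale.Agent.P281 Vale.Agent.P281.H713 Vale.Agent.P272.K
open scoped Topology ContDiff ComplexConjugate

noncomputable section

namespace Vale.Agent.P281.H751.HKT

open Vale.Agent.P281.H64.TK Vale.Agent.P281.H64.TK.TS Vale.Agent.P281.H747.TS
open Vale.Agent.P281.H83.HKT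
open Vale.Agent.P281.H191.HKT

/-- **ARITH** -/
theorem arithStmt : ArithStmt := by
  intro a d E Γ _ _ _ _ _ _ S u κ c hd hu hc hcr hκ hR
  obtain ⟨n, m₀, M, J₀, h⟩ := hR
  obtain ⟨m, B, J, J', e1, e2, -, e4⟩ := arith_core
    (Matrix.of fun k l => (bT S u (M.b k) (M.b l) c).re / κ)
    (fun k l => by
      show (bT S u (M.b k) (M.b l) c).re / κ = (bT S u (M.b l) (M.b k) c).re / κ
      rw [bT_comm (by omega)]) J₀ (fun x => by
      rw [← h x]
      refine forall_congr' fun l => ?_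
      have e : ∑ k, x k * (Matrix.of fun k l => (bT S u (M.b k) (M.b l) c).re / κ) k l =
          (∑ k, x k * (bT S u (M.b k) (M.b l) c).re) / κ := by
        rw [Finset.sum_div]
        exact Finset.sum_congr rfl fun k _ => by
          show x k * ((bT S u (M.b k) (M.b l) c).re / κ) = _
          ring
      rw [e, div_eq_zero_iff]
      constructor
      · rintro (h | h)
        · exact h
        · exact absurd h hκ.ne'
      · exact fun h => Or.inl h)
  refine ⟨m, B, ⟨⟨n, M, J, J', e1, e2, fun k l => ?_⟩⟩⟩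
  exact congrFun (congrFun e4 k) l

section
variable {d : ℕ} {E Γ : Type} [TopologicalSpace E] [Group Γ] [MulAction Γ E]
  {S : Sheets d E Γ} {n n' : ℕ}

/-- The coordinates in another marking. -/
theorem cl_change (M : Mark2 S n) (M' : Mark2 S n') (a : Fin n → Fin n' → ℤ)
    (ha : ∀ k j, M'.cl (M.b k) j = (a k j : ℂ)) {α : Fin S.N → Cm d → L2 d} (hα : Cl2 S α) :
    M'.cl α = ((Matrix.of fun j k => a k j).map (Int.cast : ℤ → ℂ)).mulVec (M.cl α) := by
  have hγ : Cl2 S (fun i z => ∑ k, M.cl α k • M.b k i z) :=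
    cl2_sum Finset.univ (M.cl α) fun k _ => M.closed k
  have h1 : M'.cl (fun i z => α i z - ∑ k, M.cl α k • M.b k i z) = 0 :=
    cl_of_exact M' (cl2_sub hα hγ) (M.ex α hα)
  have h2 := cl_add M' (cl2_sub hα hγ) hγ
  rw [h1, zero_add, cl_sum M' Finset.univ (M.cl α) fun k _ => M.closed k] at h2
  have h3 : M'.cl (fun i z => (α i z - ∑ k, M.cl α k • M.b k i z) +
      ∑ k, M.cl α k • M.b k i z) = M'.cl α :=
    (cl_congr M' hα fun i z _ => (sub_add_cancel (α i z) _).symm).symm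
  rw [← h3, h2]
  funext j
  rw [Finset.sum_apply]
  show ∑ k, (M.cl α k • M'.cl (M.b k)) j = ∑ k, ((a k j : ℤ) : ℂ) * M.cl α k
  refine Finset.sum_congr rfl fun k _ => ?_
  rw [Pi.smul_apply, ha, smul_eq_mul, mul_comm]

theorem change_inv (M : Mark2 S n) (M' : Mark2 S n') (a : Fin n → Fin n' → ℤ)
    (ha : ∀ k j, M'.cl (M.b k) j = (a k j : ℂ)) (a' : Fin n' → Fin n → ℤ)
    (ha' : ∀ k j, M.cl (M'.b k) j = (a' k j : ℂ)) :
    (Matrix.of fun j k => a' k j) * (Matrix.of fun j k => a k j) =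
      (1 : Matrix (Fin n) (Fin n) ℤ) := by
  ext i k
  have h1 := cl_change M' M a' ha' (M.closed k)
  rw [cl_b] at h1
  have h2 := congrFun h1 i
  have h3 : ((Matrix.of fun j k => a' k j).map (Int.cast : ℤ → ℂ)).mulVec (M'.cl (M.b k)) i =
      ((∑ j, a' j i * a k j : ℤ) : ℂ) := by
    show ∑ j, ((a' j i : ℤ) : ℂ) * M'.cl (M.b k) j = _
    push_cast
    exact Finset.sum_congr rfl fun j _ => by rw [ha]
  rw [h3] at h2
  rw [Matrix.mul_apply]
  show ∑ j, a' j i * a k j = (1 : Matrix (Fin n) (Fin n) ℤ) i k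
  rw [Matrix.one_apply]
  have h4 : (Pi.single k (1 : ℂ) : Fin n → ℂ) i = ((if i = k then (1 : ℤ) else 0 : ℤ) : ℂ) := by
    by_cases h : i = k
    · subst h; simp
    · rw [Pi.single_eq_of_ne h, if_neg h, Int.cast_zero]
  rw [h4] at h2
  exact (Int.cast_injective h2).symm

theorem pull_self {α : Fin S.N → Cm d → L2 d} (hα : Cl2 S α) : Pull2 S S id α α :=
  fun i j z hz z' hz' ψ hψ u v => hα.change i j z hz z' hz' (mem_univ _) ψ hψ u v

/-- `ThRel` for `bT`. -/
theorem thRel_bT {a : ℕ} (hd : a + 2 ≤ d) {u u' : Fin S.N → Cm d → Matrix (Fin a) (Fin d) ℂ}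
    {κ κ' : ℝ} (hκ : 0 < κ) (hκ' : 0 < κ') (h : ThRel S u κ S u' κ' id)
    {x y c : Fin S.N → Cm d → L2 d} (hx : Cl2 S x) (hy : Cl2 S y) (hc : Cl2 S c) :
    (bT S u x y c).re / κ = (bT S u' x y c).re / κ' := by
  have h1 := h (xyc a x y c) (xyc a x y c) (xyc_prop hx hy hc) (xyc_prop hx hy hc)
    (fun l => pull_self (xyc_prop hx hy hc l))
  rw [← bT_eq_tT hd, ← bT_eq_tT hd] at h1
  have h2 := congrArg Complex.re h1
  rw [Complex.re_ofReal_mul, Complex.re_ofReal_mul] at h2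
  rw [div_eq_div_iff hκ.ne' hκ'.ne']
  linarith

end

/-- **TWO** -/
theorem twoTStmt : TwoTStmt := by
  intro a d E Γ _ _ _ _ _ _ S u u' κ κ' c m B B' T T' hd hu hu' hκ hκ' hTh hc hcr
  choose b hb using fun k j => T'.M.intcl (T.M.b k) (T.M.closed k) (T.M.int k) j
  choose b' hb' using fun k j => T.M.intcl (T'.M.b k) (T'.M.closed k) (T'.M.int k) j
  obtain ⟨A, A', hA1, hA2, hA3, hA4⟩ := two_core
    (Matrix.of fun k l => (bT S u (T.M.b k) (T.M.b l) c).re / κ)
    (Matrix.of fun k l => (bT S u' (T'.M.b k) (T'.M.b l) c).re / κ')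
    (Matrix.of fun j k => b k j) (Matrix.of fun j k => b' k j)
    (change_inv T'.M T.M b' hb' b hb) (change_inv T.M T'.M b hb b' hb')
    (by
      ext k l
      have h1 := bT_cl (by omega) hu' T'.M hc hcr (T.M.closed k) (T.M.closed l)
      have h2 : (bT S u (T.M.b k) (T.M.b l) c).re / κ =
          ∑ i, ∑ j, (b k i : ℝ) * (b l j : ℝ) * ((bT S u' (T'.M.b i) (T'.M.b j) c).re / κ') := by
        rw [thRel_bT hd hκ hκ' hTh (T.M.closed k) (T.M.closed l) hc, h1]
        have h3 : (∑ i, ∑ j, T'.M.cl (T.M.b k) i * T'.M.cl (T.M.b l) j *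
            ((bT S u' (T'.M.b i) (T'.M.b j) c).re : ℂ)) =
            ((∑ i, ∑ j, (b k i : ℝ) * (b l j : ℝ) * (bT S u' (T'.M.b i) (T'.M.b j) c).re : ℝ) :
              ℂ) := by
          push_cast
          exact Finset.sum_congr rfl fun i _ => Finset.sum_congr rfl fun j _ => by
            rw [hb, hb]
        rw [h3, Complex.ofReal_re, Finset.sum_div]
        refine Finset.sum_congr rfl fun i _ => ?_
        rw [Finset.sum_div]
        exact Finset.sum_congr rfl fun j _ => by ring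
      show _ = (bT S u (T.M.b k) (T.M.b l) c).re / κ
      rw [h2]
      simp only [rm, Matrix.mul_apply, Matrix.transpose_apply, Matrix.map_apply, Matrix.of_apply,
        Finset.sum_mul]
      rw [Finset.sum_comm]
      refine Finset.sum_congr rfl fun i _ => Finset.sum_congr rfl fun j _ => ?_
      ring)
    B T.J T.J' T.inv T.unit (by ext k l; exact T.form k l)
    B' T'.J T'.J' T'.inv T'.unit (by ext k l; exact T'.form k l)
  refine ⟨A, Matrix.isUnit_det_of_right_inverse hA1, fun α hα => ?_, hA4⟩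
  have h1 := cl_change T.M T'.M b hb hα
  show (T'.J.map (Int.cast : ℤ → ℂ)).mulVec (T'.M.cl α) =
    (A.map (Int.cast : ℤ → ℂ)).mulVec ((T.J.map (Int.cast : ℤ → ℂ)).mulVec (T.M.cl α))
  rw [h1, Matrix.mulVec_mulVec, Matrix.mulVec_mulVec]
  have h2 : ∀ {p q r : ℕ} (X : Matrix (Fin p) (Fin q) ℤ) (Y : Matrix (Fin q) (Fin r) ℤ),
      X.map (Int.cast : ℤ → ℂ) * Y.map (Int.cast : ℤ → ℂ) = (X * Y).map (Int.cast : ℤ → ℂ) :=
    fun X Y => (Matrix.map_mul (f := Int.castRingHom ℂ)).symm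
  rw [h2, h2, hA3]

end Vale.Agent.P281.H751.HKT
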